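import Vale.Agent.N150D.Low

/-!
A positive curvature bound for the heat-bath dynamics with small couplings, and the local
inequalities (Poincare, exponential moments) for the law at time `t` from a fixed start.
-/

open Finset

namespace Vale.Agent.P150.Cut

open Vale.Agent.P150.Low

/-! ### The change of a rate -/

lemma odds_eq (w y : ℝ) (hw : 0 < w) :
    Real.exp y * w / (1 + Real.exp y * w) - w / (1 + w)
      = w / (1 + w) * (1 - w / (1 + w))
        * ((Real.exp y - 1) / (1 + w / (1 + w) * (Real.exp y - 1))) := by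
  have hE := Real.exp_pos y
  have h1 : 1 + w / (1 + w) * (Real.exp y - 1) = (1 + Real.exp y * w) / (1 + w) := by
    field_simp
    ring
  rw [h1]
  field_simp
  ring

lemma exp_three {y : ℝ} (hy : |y| ≤ 1) : |Real.exp y - 1 - y - y ^ 2 / 2| ≤ |y| ^ 3 := by
  have h := Real.exp_bound hy (n := 3) (by norm_num)
  simp only [Finset.sum_range_succ, Finset.range_zero, Finset.sum_empty, Nat.factorial] at h
  norm_num at h
  have e : Real.exp y - 1 - y - y ^ 2 / 2 = Real.exp y - (1 + y + y ^ 2 / 2) := by ring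
  rw [e]
  have : 0 ≤ |y| ^ 3 := by positivity
  linarith

lemma quot_bounds {r y η : ℝ} (h0 : 0 ≤ r) (h1 : r ≤ 1) (hy : |y| ≤ η) (hη : η ≤ 1 / 8) :
    |(Real.exp y - 1) / (1 + r * (Real.exp y - 1))| ≤ (1 + 4 * η) * |y| ∧
    |(Real.exp y - 1) / (1 + r * (Real.exp y - 1)) - y| ≤ (|1 - 2 * r| / 2 + 5 * η) * y ^ 2 := by
  have hy0 := abs_nonneg y
  have hη0 : 0 ≤ η := hy0.trans hy
  have hy1 : |y| ≤ 1 := by linarith
  set E := Real.exp y - 1 with hE
  have a1 : |E - y| ≤ y ^ 2 := Real.abs_exp_sub_one_sub_id_le hy1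
  have a2 : |E - y - y ^ 2 / 2| ≤ |y| ^ 3 := exp_three hy1
  have hsq : y ^ 2 = |y| * |y| := by rw [← sq_abs]; ring
  have a3 : |E| ≤ (1 + η) * |y| := by
    have b1 : |E| ≤ |E - y| + |y| := by
      have := abs_add_le (E - y) y
      rwa [sub_add_cancel] at this
    have b2 : |y| * |y| ≤ η * |y| := mul_le_mul_of_nonneg_right hy hy0
    linarith
  have a4 : |E| ≤ 2 * η := by nlinarith
  have a5 : 1 - 2 * η ≤ 1 + r * E := by
    have b1 : |r * E| ≤ 2 * η := by
      rw [abs_mul, abs_of_nonneg h0]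
      nlinarith [abs_nonneg E]
    linarith [(abs_le.1 b1).1]
  have hD : 0 < 1 + r * E := by linarith
  have hinv : 1 ≤ (1 + 4 * η) * (1 + r * E) := by nlinarith
  constructor
  · rw [abs_div, abs_of_pos hD, div_le_iff₀ hD]
    have b1 : (1 + η) ≤ (1 + 4 * η) * (1 + r * E) := by nlinarith
    nlinarith
  · have e : E / (1 + r * E) - y
        = ((1 - 2 * r) * (y ^ 2 / 2) + (E - y - y ^ 2 / 2) - r * y * (E - y)) / (1 + r * E) := by
      rw [eq_div_iff hD.ne', sub_mul, div_mul_cancel₀ _ hD.ne']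
      ring
    rw [e, abs_div, abs_of_pos hD, div_le_iff₀ hD]
    have b1 : |(1 - 2 * r) * (y ^ 2 / 2)| = |1 - 2 * r| / 2 * y ^ 2 := by
      rw [abs_mul, abs_of_nonneg (by positivity : 0 ≤ y ^ 2 / 2)]; ring
    have b2 : |y| ^ 3 ≤ η * y ^ 2 := by
      rw [hsq]
      nlinarith [mul_nonneg hy0 hy0]
    have b3 : |r * y * (E - y)| ≤ η * y ^ 2 := by
      rw [abs_mul, abs_mul, abs_of_nonneg h0]
      have c1 : r * |y| ≤ η := by nlinarith
      exact mul_le_mul c1 a1 (abs_nonneg _) hη0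
    have b4 : |(1 - 2 * r) * (y ^ 2 / 2) + (E - y - y ^ 2 / 2) - r * y * (E - y)|
        ≤ (|1 - 2 * r| / 2 + 2 * η) * y ^ 2 := by
      have c1 := abs_sub ((1 - 2 * r) * (y ^ 2 / 2) + (E - y - y ^ 2 / 2)) (r * y * (E - y))
      have c2 := abs_add_le ((1 - 2 * r) * (y ^ 2 / 2)) (E - y - y ^ 2 / 2)
      linarith
    have b5 : |1 - 2 * r| ≤ 1 := abs_le.2 ⟨by linarith, by linarith⟩
    have b6 : |1 - 2 * r| / 2 + 2 * η ≤ (|1 - 2 * r| / 2 + 5 * η) * (1 + r * E) := by
      have c1 : (|1 - 2 * r| / 2 + 5 * η) * (1 - 2 * η)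
          ≤ (|1 - 2 * r| / 2 + 5 * η) * (1 + r * E) :=
        mul_le_mul_of_nonneg_left a5 (by positivity)
      nlinarith [abs_nonneg (1 - 2 * r)]
    calc _ ≤ (|1 - 2 * r| / 2 + 2 * η) * y ^ 2 := b4
      _ ≤ (|1 - 2 * r| / 2 + 5 * η) * (1 + r * E) * y ^ 2 :=
          mul_le_mul_of_nonneg_right b6 (sq_nonneg y)
      _ = _ := by ring

variable {n : ℕ} {J : Fin n → Fin n → ℝ} {b : Fin n → ℝ}

lemma abs_sp (s : Bool) : |sp s| = 1 := by cases s <;> simp [sp]

lemma sp_pow (s : Bool) : sp s ^ 2 = 1 := by cases s <;> simp [sp]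

/-- the two bounds on the change of the rate at `j` when the spin `i` is flipped -/
lemma rd_bounds (hJ : ∀ i j, J i j = J j i) {η : ℝ} (hη : η ≤ 1 / 8)
    (hs : ∀ i j, 4 * |Jo J i j| ≤ η) (x : Cfg n) (i j : Fin n) :
    |rd J b x i j| ≤ (1 + 4 * η) * (4 * |Jo J i j|) * (rate J b x j * (1 - rate J b x j)) ∧
    |rd J b x i j - 4 * Jo J i j * sp (x i) * sp (x j) * (rate J b x j * (1 - rate J b x j))|
      ≤ (|1 - 2 * rate J b x j| / 2 + 5 * η) * (16 * Jo J i j ^ 2)
        * (rate J b x j * (1 - rate J b x j)) := by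
  unfold rd
  by_cases h : j = i
  · have : Jo J i j = 0 := by unfold Jo; rw [if_pos h]
    rw [if_pos h, this]
    simp
  rw [if_neg h]
  have r0 := (rate_pos (J := J) b x j).le
  have r1 := rate_le_one (J := J) b x j
  have hs0 : 0 ≤ rate J b x j * (1 - rate J b x j) := mul_nonneg r0 (by linarith)
  set y := 4 * (Jo J i j * sp (x i) * sp (x j)) with hy
  have habs : |y| = 4 * |Jo J i j| := by
    rw [hy, abs_mul, abs_mul, abs_mul, abs_sp, abs_sp]; norm_num
  have hsq : y ^ 2 = 16 * Jo J i j ^ 2 := by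
    rw [← sq_abs, habs, mul_pow, sq_abs]; norm_num
  have key : rate J b (flip x i) j - rate J b x j = rate J b x j * (1 - rate J b x j)
      * ((Real.exp y - 1) / (1 + rate J b x j * (Real.exp y - 1))) := by
    rw [rate_exp b hJ, rate_exp b hJ, locField_flip_ne b x h, sp_flip_ne x h, Jo_symm hJ j i]
    have e : -(2 * sp (x j) * (locField J b x j - 2 * Jo J i j * sp (x i)))
        = y + -(2 * sp (x j) * locField J b x j) := by rw [hy]; ring
    rw [e, Real.exp_add]
    exact odds_eq _ _ (Real.exp_pos _)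
  obtain ⟨q1, q2⟩ := quot_bounds r0 r1 (habs.le.trans (hs i j)) hη
  rw [key]
  constructor
  · rw [abs_mul, abs_of_nonneg hs0, mul_comm, ← habs]
    exact mul_le_mul_of_nonneg_right q1 hs0
  · have e : 4 * Jo J i j * sp (x i) * sp (x j) = y := by rw [hy]; ring
    rw [e, mul_comm y, ← mul_sub, abs_mul, abs_of_nonneg hs0, mul_comm, ← hsq]
    exact mul_le_mul_of_nonneg_right q2 hs0

/-! ### The curvature bound -/

/-- The gradient form of the curvature condition with the constant `κ`. -/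
def Curv (J : Fin n → Fin n → ℝ) (b : Fin n → ℝ) (κ : ℝ) : Prop :=
  ∀ (g : Cfg n → ℝ) (x : Cfg n), 2 * κ * sqg g x
    + (1 / 2) * ∑ i, (g (flip x i) - g x) * (gen J b g (flip x i) - gen J b g x)
      ≤ gen J b (sqg g) x

lemma cubic_le {r : ℝ} (h1 : r ≤ 1) : r * (1 - r) ^ 2 ≤ 4 / 27 := by
  nlinarith [mul_nonneg (sq_nonneg (r - 1 / 3)) (show 0 ≤ 4 / 3 - r by linarith)]

lemma site_le {r : ℝ} (h0 : 0 ≤ r) (h1 : r ≤ 1) :
    (4 * (r * (1 - r))) ^ 2 * (1 + 2 * (1 - 2 * r) ^ 2) ≤ 1 := by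
  have e : 4 * (r * (1 - r)) = 1 - (1 - 2 * r) ^ 2 := by ring
  rw [e]
  set u := (1 - 2 * r) ^ 2 with hu
  have u0 : 0 ≤ u := sq_nonneg _
  have u1 : u ≤ 1 := by rw [hu]; nlinarith
  nlinarith [mul_nonneg (mul_nonneg u0 u0) (show 0 ≤ 3 - 2 * u by linarith)]

theorem curv (hJ : ∀ i j, J i j = J j i) {lam r γ η κ : ℝ} (hlam0 : 0 ≤ lam)
    (hlam : ∀ v : Fin n → ℝ, |∑ i, ∑ j, Jo J i j * v i * v j| ≤ lam * ∑ i, v i ^ 2)
    (hr : ∀ i, ∑ j, Jo J i j ^ 2 ≤ r) (hη0 : 0 ≤ η) (hη : η ≤ 1 / 8)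
    (hs : ∀ i j, 4 * |Jo J i j| ≤ η) (hγ : 0 < γ) (hγr : r ≤ γ * lam)
    (hκ : κ + lam + γ * r + 20 * η * r + 32 / 27 * (1 + 4 * η) ^ 2 * r ≤ 1) :
    Curv J b κ := by
  intro g x
  set a : Fin n → ℝ := fun i => g (flip x i) - g x with ha
  set B : Fin n → Fin n → ℝ := fun i j => bd g x i j with hB
  set D : Fin n → Fin n → ℝ := fun i j => rd J b x i j with hD
  set ρ : Fin n → ℝ := fun i => rate J b x i with hρ
  have hρ0 : ∀ i, 0 < ρ i := fun i => rate_pos b x i
  have hρ1 : ∀ i, ρ i ≤ 1 := fun i => rate_le_one b x i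
  set S : Fin n → ℝ := fun i => 4 * (ρ i * (1 - ρ i)) with hS
  have hS0 : ∀ i, 0 ≤ S i := fun i => by
    have := mul_nonneg (hρ0 i).le (show 0 ≤ 1 - ρ i by linarith [hρ1 i])
    simp only [hS]; linarith
  have hS1 : ∀ i, S i ≤ 1 := fun i => by
    simp only [hS]; nlinarith [sq_nonneg (ρ i - 1 / 2)]
  have hD1 : ∀ i j, |D i j| ≤ (1 + 4 * η) * (4 * |Jo J i j|) * (ρ j * (1 - ρ j)) :=
    fun i j => (rd_bounds hJ hη hs x i j).1
  have hD2 : ∀ i j, |D i j - 4 * Jo J i j * sp (x i) * sp (x j) * (ρ j * (1 - ρ j))|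
      ≤ (|1 - 2 * ρ j| / 2 + 5 * η) * (16 * Jo J i j ^ 2) * (ρ j * (1 - ρ j)) :=
    fun i j => (rd_bounds hJ hη hs x i j).2
  have h0 : 0 ≤ ∑ i, a i ^ 2 := Finset.sum_nonneg fun i _ => sq_nonneg _
  have e0 : gen J b (sqg g) x
      = (1 / 2) * ∑ j, ρ j * ∑ i, a i * B i j + (1 / 4) * ∑ i, ∑ j, ρ j * B i j ^ 2 := by
    rw [gen_eq b hJ, Finset.sum_comm (s := univ) (t := univ) (f := fun i j => ρ j * B i j ^ 2),
      Finset.mul_sum, Finset.mul_sum, ← Finset.sum_add_distrib]
    refine Finset.sum_congr rfl fun j _ => ?_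
    rw [sqg_flip, ← Finset.mul_sum, Finset.sum_add_distrib]
    have : ∑ i, 2 * (g (flip x i) - g x) * bd g x i j = 2 * ∑ i, a i * B i j := by
      rw [Finset.mul_sum]
      exact Finset.sum_congr rfl fun i _ => by simp only [ha, hB]; ring
    rw [this]
    simp only [hρ, hB]
    ring
  have e1 : ∑ i, a i * (gen J b g (flip x i) - gen J b g x)
      = -∑ i, a i ^ 2 + ∑ j, ρ j * ∑ i, a i * B i j + ∑ i, ∑ j, a i * D i j * a j
        + ∑ i, ∑ j, a i * D i j * B i j := by
    have h1 : ∀ i, a i * (gen J b g (flip x i) - gen J b g x)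
        = -a i ^ 2 + ∑ j, a i * (ρ j * B i j) + ∑ j, a i * D i j * a j
          + ∑ j, a i * D i j * B i j := by
      intro i
      rw [gen_diff b hJ, mul_add, Finset.mul_sum]
      simp only [mul_add, Finset.sum_add_distrib, ha, hB, hD, hρ, ← mul_assoc]
      ring
    rw [Finset.sum_congr rfl (fun i _ => h1 i)]
    simp only [Finset.sum_add_distrib, Finset.sum_neg_distrib]
    congr 3
    rw [Finset.sum_comm]
    apply Finset.sum_congr rfl; intro j _
    rw [Finset.mul_sum]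
    apply Finset.sum_congr rfl; intro i _
    ring
  have hrow : ∀ c : Fin n → ℝ, (∀ i, 0 ≤ c i) →
      ∑ i, ∑ j, c i * Jo J i j ^ 2 ≤ r * ∑ i, c i := by
    intro c hc
    simp only [← Finset.mul_sum]
    rw [Finset.mul_sum]
    apply Finset.sum_le_sum; intro i _
    rw [mul_comm r]
    exact mul_le_mul_of_nonneg_left (hr i) (hc i)
  have hcol : ∀ c : Fin n → ℝ, (∀ i, 0 ≤ c i) →
      ∑ i, ∑ j, c j * Jo J i j ^ 2 ≤ r * ∑ i, c i := by
    intro c hc
    rw [Finset.sum_comm]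
    refine le_trans (le_of_eq ?_) (hrow c hc)
    apply Finset.sum_congr rfl; intro i _
    apply Finset.sum_congr rfl; intro j _
    rw [Jo_symm hJ]
  have e4 : ∑ i, ∑ j, a i * D i j * B i j
      ≤ (1 / 2) * ∑ i, ∑ j, ρ j * B i j ^ 2
        + 32 / 27 * (1 + 4 * η) ^ 2 * (r * ∑ i, a i ^ 2) := by
    have h1 : ∀ i j, a i * D i j * B i j ≤ (1 / 2) * (ρ j * B i j ^ 2)
        + 32 / 27 * (1 + 4 * η) ^ 2 * (a i ^ 2 * Jo J i j ^ 2) := by
      intro i j
      set c := (1 + 4 * η) * (4 * |Jo J i j|) * (1 - ρ j) with hc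
      have h2 : |D i j| ≤ c * ρ j := by rw [hc]; linarith [hD1 i j]
      have h3 : |a i * D i j * B i j| ≤ |a i| * (c * ρ j) * |B i j| := by
        rw [abs_mul, abs_mul]
        exact mul_le_mul_of_nonneg_right (mul_le_mul_of_nonneg_left h2 (abs_nonneg _))
          (abs_nonneg _)
      have h4 : |a i| * (c * ρ j) * |B i j|
          ≤ (1 / 2) * (ρ j * B i j ^ 2) + (1 / 2) * (a i ^ 2 * c ^ 2 * ρ j) := by
        rw [← sq_abs (B i j), ← sq_abs (a i)]
        linarith only [mul_nonneg (hρ0 j).le (sq_nonneg (|B i j| - |a i| * c))]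
      have h5 : (1 / 2) * (a i ^ 2 * c ^ 2 * ρ j)
          = 8 * (1 + 4 * η) ^ 2 * (a i ^ 2 * Jo J i j ^ 2) * (ρ j * (1 - ρ j) ^ 2) := by
        rw [hc, ← sq_abs (Jo J i j)]; ring
      have h6 := mul_le_mul_of_nonneg_left (cubic_le (hρ1 j))
        (show 0 ≤ 8 * (1 + 4 * η) ^ 2 * (a i ^ 2 * Jo J i j ^ 2) by positivity)
      have h7 := le_abs_self (a i * D i j * B i j)
      linarith only [h3, h4, h5, h6, h7]
    have h2 := mul_le_mul_of_nonneg_left (hrow (fun i => a i ^ 2) fun i => sq_nonneg _)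
      (show 0 ≤ 32 / 27 * (1 + 4 * η) ^ 2 by positivity)
    calc ∑ i, ∑ j, a i * D i j * B i j
        ≤ ∑ i, ∑ j, ((1 / 2) * (ρ j * B i j ^ 2)
          + 32 / 27 * (1 + 4 * η) ^ 2 * (a i ^ 2 * Jo J i j ^ 2)) :=
          Finset.sum_le_sum fun i _ => Finset.sum_le_sum fun j _ => h1 i j
      _ = (1 / 2) * ∑ i, ∑ j, ρ j * B i j ^ 2
          + 32 / 27 * (1 + 4 * η) ^ 2 * ∑ i, ∑ j, a i ^ 2 * Jo J i j ^ 2 := by
          simp only [Finset.sum_add_distrib, Finset.mul_sum]
      _ ≤ _ := by linarith only [h2]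
  have e3 : ∑ i, ∑ j, a i * D i j * a j ≤ (lam + γ * r + 20 * η * r) * ∑ i, a i ^ 2 := by
    set c : Fin n → ℝ := fun j => (S j * a j) ^ 2 * (1 - 2 * ρ j) ^ 2 with hc
    have h1 : ∀ i j, a i * D i j * a j
        ≤ Jo J i j * (a i * sp (x i)) * (sp (x j) * (S j * a j))
          + (γ + 10 * η) * (a i ^ 2 * Jo J i j ^ 2) + γ⁻¹ * (c j * Jo J i j ^ 2)
          + 10 * η * (a j ^ 2 * Jo J i j ^ 2) := by
      intro i j
      have h3 : a i * D i j * a j
          = Jo J i j * (a i * sp (x i)) * (sp (x j) * (S j * a j))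
          + (a i * a j) * (D i j - 4 * Jo J i j * sp (x i) * sp (x j) * (ρ j * (1 - ρ j))) := by
        simp only [hS]; ring
      have h4 : (a i * a j) * (D i j - 4 * Jo J i j * sp (x i) * sp (x j) * (ρ j * (1 - ρ j)))
          ≤ |a i| * |a j| * ((|1 - 2 * ρ j| / 2 + 5 * η) * (16 * Jo J i j ^ 2)
            * (ρ j * (1 - ρ j))) := by
        refine (le_abs_self _).trans ?_
        rw [abs_mul, abs_mul]
        exact mul_le_mul_of_nonneg_left (hD2 i j) (by positivity)
      have h5 : |a i| * |a j| * ((|1 - 2 * ρ j| / 2 + 5 * η) * (16 * Jo J i j ^ 2)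
            * (ρ j * (1 - ρ j)))
          = (2 * |a i| * (S j * |a j| * |1 - 2 * ρ j|) + 20 * η * (|a i| * |a j| * S j))
            * Jo J i j ^ 2 := by
        simp only [hS]; ring
      have h6 : 2 * |a i| * (S j * |a j| * |1 - 2 * ρ j|) ≤ γ * a i ^ 2 + γ⁻¹ * c j := by
        have k1 : c j = (S j * |a j| * |1 - 2 * ρ j|) ^ 2 := by
          simp only [hc, mul_pow, sq_abs]
        rw [k1, ← sq_abs (a i)]
        set p := |a i|
        set q := S j * |a j| * |1 - 2 * ρ j|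
        have k2 : γ * p ^ 2 + γ⁻¹ * q ^ 2 - 2 * p * q = γ⁻¹ * (γ * p - q) ^ 2 := by
          field_simp
          ring
        have k3 : 0 ≤ γ⁻¹ * (γ * p - q) ^ 2 := by positivity
        linarith only [k2, k3]
      have h7 : |a i| * |a j| * S j ≤ (1 / 2) * (a i ^ 2 + a j ^ 2) := by
        have k1 : |a i| * |a j| * S j ≤ |a i| * |a j| * 1 :=
          mul_le_mul_of_nonneg_left (hS1 j) (by positivity)
        rw [← sq_abs (a i), ← sq_abs (a j)]
        linarith only [k1, sq_nonneg (|a i| - |a j|)]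
      have h8 := mul_le_mul_of_nonneg_left h7 (show 0 ≤ 20 * η by positivity)
      have h9 := mul_le_mul_of_nonneg_right (add_le_add h6 h8) (sq_nonneg (Jo J i j))
      linarith only [h3, h4, h5, h9]
    have h2 := bilin_le (A := Jo J) (Jo_symm hJ) hlam (fun i => a i * sp (x i))
      (fun j => sp (x j) * (S j * a j))
    have h3 : ∑ i, (a i * sp (x i)) ^ 2 = ∑ i, a i ^ 2 :=
      Finset.sum_congr rfl fun i _ => by rw [mul_pow, sp_pow, mul_one]
    have h4 : ∑ i, (sp (x i) * (S i * a i)) ^ 2 = ∑ i, (S i * a i) ^ 2 :=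
      Finset.sum_congr rfl fun i _ => by rw [mul_pow, sp_pow, one_mul]
    rw [h3, h4] at h2
    have hc0 : ∀ j, 0 ≤ c j := fun j => by simp only [hc]; positivity
    have h5 : ∑ i, (S i * a i) ^ 2 + 2 * ∑ i, c i ≤ ∑ i, a i ^ 2 := by
      rw [Finset.mul_sum, ← Finset.sum_add_distrib]
      refine Finset.sum_le_sum fun i _ => ?_
      have := mul_le_mul_of_nonneg_right (site_le (hρ0 i).le (hρ1 i)) (sq_nonneg (a i))
      simp only [hc, hS]
      linarith only [this]
    have h6 := mul_le_mul_of_nonneg_left (hrow (fun i => a i ^ 2) fun i => sq_nonneg _)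
      (show 0 ≤ γ + 10 * η by positivity)
    have h7 := mul_le_mul_of_nonneg_left (hcol (fun i => a i ^ 2) fun i => sq_nonneg _)
      (show 0 ≤ 10 * η by positivity)
    have h8 := mul_le_mul_of_nonneg_left (hcol c hc0) (inv_pos.2 hγ).le
    have h9 : γ⁻¹ * (r * ∑ i, c i) ≤ lam * ∑ i, c i := by
      rw [← mul_assoc]
      refine mul_le_mul_of_nonneg_right ?_ (Finset.sum_nonneg fun i _ => hc0 i)
      rwa [inv_mul_le_iff₀ hγ]
    have h10 := mul_le_mul_of_nonneg_left h5 hlam0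
    calc ∑ i, ∑ j, a i * D i j * a j
        ≤ ∑ i, ∑ j, (Jo J i j * (a i * sp (x i)) * (sp (x j) * (S j * a j))
          + (γ + 10 * η) * (a i ^ 2 * Jo J i j ^ 2) + γ⁻¹ * (c j * Jo J i j ^ 2)
          + 10 * η * (a j ^ 2 * Jo J i j ^ 2)) :=
          Finset.sum_le_sum fun i _ => Finset.sum_le_sum fun j _ => h1 i j
      _ = ∑ i, ∑ j, Jo J i j * (a i * sp (x i)) * (sp (x j) * (S j * a j))
          + (γ + 10 * η) * ∑ i, ∑ j, a i ^ 2 * Jo J i j ^ 2
          + γ⁻¹ * ∑ i, ∑ j, c j * Jo J i j ^ 2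
          + 10 * η * ∑ i, ∑ j, a j ^ 2 * Jo J i j ^ 2 := by
          simp only [Finset.sum_add_distrib, Finset.mul_sum]
      _ ≤ _ := by linarith only [h2, h6, h7, h8, h9, h10]
  have hsq : sqg g x = (1 / 4) * ∑ i, a i ^ 2 := rfl
  have hfin := mul_le_mul_of_nonneg_right hκ h0
  rw [e0, e1, hsq]
  linarith only [e3, e4, hfin]

/-! ### Interpolation along the semigroup -/

section flow

open Vale.Agent.N150D Vale.Agent.N150D.Ent

variable {X : Type*} [Fintype X] [DecidableEq X] {L : Matrix X X ℝ} {π : X → ℝ}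

/-- a subsolution of the backward equation -/
lemma flow (h : Rev L π) (w w' : ℝ → X → ℝ) {T : ℝ} (hT : 0 ≤ T)
    (hw : ∀ s y, HasDerivAt (fun r => w r y) (w' s y) s)
    (hpos : ∀ s, 0 ≤ s → s ≤ T → ∀ y, 0 ≤ act L (w s) y + w' s y) (x : X) :
    w 0 x ≤ Ent.Pt L T (w T) x := by
  set Φ : ℝ → ℝ := fun s => ∑ y, ker L s x y * w s y with hΦ
  have hd : ∀ s, HasDerivAt Φ (∑ z, ker L s x z * (act L (w s) z + w' s z)) s := by
    intro s
    have h1 : HasDerivAt Φ (∑ y, ((ker L s * L) x y * w s y + ker L s x y * w' s y)) s :=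
      HasDerivAt.fun_sum fun y _ => (ker_deriv L s x y).mul (hw s y)
    have h2 : ∑ y, ((ker L s * L) x y * w s y + ker L s x y * w' s y)
        = ∑ z, ker L s x z * (act L (w s) z + w' s z) := by
      simp only [Matrix.mul_apply, act, mul_add, Finset.sum_add_distrib, Finset.sum_mul,
        Finset.mul_sum]
      congr 1
      rw [Finset.sum_comm]
      exact Finset.sum_congr rfl fun z _ => Finset.sum_congr rfl fun y _ => by ring
    rwa [h2] at h1
  have hm : MonotoneOn Φ (Set.Icc 0 T) := by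
    apply monotoneOn_of_deriv_nonneg (convex_Icc 0 T)
    · exact fun s _ => (hd s).continuousAt.continuousWithinAt
    · exact fun s _ => (hd s).differentiableAt.differentiableWithinAt
    · intro s hs
      rw [interior_Icc] at hs
      rw [(hd s).deriv]
      exact Finset.sum_nonneg fun z _ =>
        mul_nonneg (h.ker_nonneg hs.1.le x z) (hpos s hs.1.le hs.2.le z)
  have h0 := hm ⟨le_rfl, hT⟩ ⟨hT, le_rfl⟩ hT
  have e0 : Φ 0 = w 0 x := Ent.Pt_zero (L := L) (w 0) x
  rw [e0] at h0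
  exact h0

lemma back_deriv (L : Matrix X X ℝ) (g : X → ℝ) (T s : ℝ) (y : X) :
    HasDerivAt (fun r => Ent.Pt L (T - r) g y) (-act L (Ent.Pt L (T - s) g) y) s := by
  have h := (Ent.Pt_deriv (L := L) g (T - s) y).comp s ((hasDerivAt_id s).const_sub T)
  rw [mul_neg_one] at h
  exact h

lemma Pt_mono (h : Rev L π) {t : ℝ} (ht : 0 ≤ t) {f g : X → ℝ} (hfg : ∀ y, f y ≤ g y) (x : X) :
    Ent.Pt L t f x ≤ Ent.Pt L t g x :=
  Finset.sum_le_sum fun y _ => mul_le_mul_of_nonneg_left (hfg y) (h.ker_nonneg ht x y)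

lemma Pt_const (h : Rev L π) (t c : ℝ) (x : X) : Ent.Pt L t (fun _ => c) x = c := by
  unfold Ent.Pt
  rw [← Finset.sum_mul, h.ker_row, one_mul]

end flow

open Vale.Agent.N150D (Rev act ker)
open Vale.Agent.N150D.Ent (act_genMat rev_genMat)

/-- the semigroup of the heat-bath dynamics -/
noncomputable abbrev PP (J : Fin n → Fin n → ℝ) (b : Fin n → ℝ) (t : ℝ) (f : Cfg n → ℝ)
    (x : Cfg n) : ℝ := N150D.Ent.Pt (genMat J b) t f x

lemma sqg_nonneg (g : Cfg n → ℝ) (x : Cfg n) : 0 ≤ sqg g x := by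
  unfold sqg
  positivity

lemma exp_deriv (c s : ℝ) : HasDerivAt (fun r => Real.exp (c * r)) (c * Real.exp (c * s)) s := by
  have := ((hasDerivAt_id s).const_mul c).exp
  simpa [mul_comm] using this

lemma exp_back (c T s : ℝ) :
    HasDerivAt (fun r => Real.exp (-(c * (T - r)))) (c * Real.exp (-(c * (T - s)))) s := by
  have := (((hasDerivAt_id s).const_sub T).const_mul c).neg.exp
  simpa [mul_comm] using this

/-- the gradient estimate -/
theorem grad_le (hJ : ∀ i j, J i j = J j i) {κ : ℝ} (hC : Curv J b κ) (g : Cfg n → ℝ) {T : ℝ}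
    (hT : 0 ≤ T) (x : Cfg n) :
    sqg (PP J b T g) x ≤ Real.exp (-(2 * κ * T)) * PP J b T (sqg g) x := by
  have hR := rev_genMat (b := b) hJ
  set u : ℝ → Cfg n → ℝ := fun s => PP J b (T - s) g with hu
  have hd : ∀ s y, HasDerivAt (fun r => sqg (u r) y)
      (-((1 / 2) * ∑ i, (u s (flip y i) - u s y)
        * (gen J b (u s) (flip y i) - gen J b (u s) y))) s := by
    intro s y
    have h0 : ∀ z, HasDerivAt (fun r => u r z) (-gen J b (u s) z) s := fun z => by
      rw [← act_genMat]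
      exact back_deriv _ g T s z
    have h1 : HasDerivAt (fun r => (1 / 4 : ℝ) * ∑ i, (u r (flip y i) - u r y) ^ 2)
        ((1 / 4 : ℝ) * ∑ i, ((2 : ℕ) * (u s (flip y i) - u s y) ^ (2 - 1)
          * (-gen J b (u s) (flip y i) - -gen J b (u s) y))) s :=
      HasDerivAt.const_mul _ (HasDerivAt.fun_sum fun i _ => ((h0 _).sub (h0 y)).pow 2)
    refine h1.congr_deriv ?_
    rw [Finset.mul_sum, Finset.mul_sum, ← Finset.sum_neg_distrib]
    refine Finset.sum_congr rfl fun i _ => ?_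
    push_cast
    ring
  have key := flow hR (fun s y => Real.exp (-(2 * κ) * s) * sqg (u s) y)
    (fun s y => -(2 * κ) * Real.exp (-(2 * κ) * s) * sqg (u s) y + Real.exp (-(2 * κ) * s)
      * -((1 / 2) * ∑ i, (u s (flip y i) - u s y)
        * (gen J b (u s) (flip y i) - gen J b (u s) y))) hT
    (fun s y => (exp_deriv _ s).mul (hd s y))
    (fun s _ _ y => by
      rw [act_genMat, Semi.gen_smul]
      have h1 := mul_le_mul_of_nonneg_left (hC (u s) y) (Real.exp_pos (-(2 * κ) * s)).le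
      linarith only [h1]) x
  have e1 : u 0 = PP J b T g := by simp [hu]
  have e2 : u T = g := by
    funext y
    simp [hu, N150D.Ent.Pt_zero]
  simp only [e1, e2, mul_zero, Real.exp_zero, one_mul] at key
  rw [N150D.Ent.Pt_smul] at key
  rw [show -(2 * κ * T) = -(2 * κ) * T by ring]
  exact key

lemma carre_le (g : Cfg n → ℝ) (x : Cfg n) :
    ∑ i, rate J b x i * (g (flip x i) - g x) ^ 2 ≤ 4 * sqg g x := by
  unfold sqg
  rw [← mul_assoc]
  norm_num
  exact Finset.sum_le_sum fun i _ => mul_le_of_le_one_left (sq_nonneg _) (rate_le_one b x i)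

/-- the local Poincare inequality -/
theorem loc_poinc (hJ : ∀ i j, J i j = J j i) {κ : ℝ} (hκ : 0 < κ) (hC : Curv J b κ)
    (g : Cfg n → ℝ) {T : ℝ} (hT : 0 ≤ T) (x : Cfg n) :
    PP J b T (fun y => g y ^ 2) x - PP J b T g x ^ 2 ≤ 2 / κ * PP J b T (sqg g) x := by
  have hR := rev_genMat (b := b) hJ
  set u : ℝ → Cfg n → ℝ := fun s => PP J b (T - s) g with hu
  set v : ℝ → Cfg n → ℝ := fun s => PP J b (T - s) (sqg g) with hv
  have hu' : ∀ s z, HasDerivAt (fun r => u r z) (-gen J b (u s) z) s := fun s z => by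
    rw [← act_genMat]
    exact back_deriv _ g T s z
  have hv' : ∀ s z, HasDerivAt (fun r => v r z) (-gen J b (v s) z) s := fun s z => by
    rw [← act_genMat]
    exact back_deriv _ _ T s z
  have key := flow hR
    (fun s y => -1 * u s y ^ 2 + 2 / κ * Real.exp (-(2 * κ * (T - s))) * v s y)
    (fun s y => -1 * ((2 : ℕ) * u s y ^ (2 - 1) * -gen J b (u s) y)
      + (2 / κ * (2 * κ * Real.exp (-(2 * κ * (T - s)))) * v s y
        + 2 / κ * Real.exp (-(2 * κ * (T - s))) * -gen J b (v s) y)) hT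
    (fun s y => (((hu' s y).pow 2).const_mul (-1)).add
      (((exp_back (2 * κ) T s).const_mul (2 / κ)).mul (hv' s y)))
    (fun s _ hs y => by
      rw [act_genMat, Semi.gen_add, Semi.gen_smul, Semi.gen_smul, gen_sq b hJ]
      have h1 := carre_le (J := J) (b := b) (u s) y
      have h2 : sqg (u s) y ≤ Real.exp (-(2 * κ * (T - s))) * v s y :=
        grad_le hJ hC g (sub_nonneg.2 hs) y
      have h3 : 2 / κ * (2 * κ * Real.exp (-(2 * κ * (T - s)))) * v s y
          = 4 * (Real.exp (-(2 * κ * (T - s))) * v s y) := by field_simp; ring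
      push_cast
      rw [h3, pow_one]
      linarith only [h1, h2]) x
  have e1 : u 0 = PP J b T g := by simp [hu]
  have e2 : u T = g := by
    funext y
    simp [hu, N150D.Ent.Pt_zero]
  have e3 : v T = sqg g := by
    funext y
    simp [hv, N150D.Ent.Pt_zero]
  have e4 : 0 ≤ v 0 x := N150D.Ent.Pt_nonneg hR (by linarith) (sqg_nonneg g) x
  simp only [e1, e2, e3, sub_self, mul_zero, neg_zero, Real.exp_zero, mul_one] at key
  rw [N150D.Ent.Pt_add, N150D.Ent.Pt_smul, N150D.Ent.Pt_smul] at key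
  have e5 : 0 ≤ 2 / κ * Real.exp (-(2 * κ * (T - 0))) * v 0 x := by positivity
  linarith only [key, e5]

lemma exp_quad {z B : ℝ} (hz : |z| ≤ B) : Real.exp z - 1 - z ≤ Real.exp B * z ^ 2 := by
  have hB : 0 ≤ B := (abs_nonneg z).trans hz
  have h1 : 1 ≤ Real.exp B := Real.one_le_exp hB
  have h2 := Real.add_one_le_exp (-z)
  have h3 : Real.exp z * Real.exp (-z) = 1 := by rw [← Real.exp_add]; simp
  have h4 := Real.exp_pos z
  have h5 := Real.add_one_le_exp z
  have h6 : Real.exp z - 1 ≤ z * Real.exp z := by nlinarith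
  rcases le_total 0 z with h | h
  · have h7 : Real.exp z ≤ Real.exp B := Real.exp_le_exp.2 (le_trans (le_abs_self z) hz)
    have h8 : z * (Real.exp z - 1) ≤ z * (z * Real.exp z) := mul_le_mul_of_nonneg_left h6 h
    have h9 : z ^ 2 * Real.exp z ≤ z ^ 2 * Real.exp B :=
      mul_le_mul_of_nonneg_left h7 (sq_nonneg z)
    nlinarith
  · have h8 : z * (Real.exp z - 1) ≤ z * z := mul_le_mul_of_nonpos_left (by linarith) h
    nlinarith [sq_nonneg z]

lemma diff_le_of_sqg {g : Cfg n → ℝ} {x : Cfg n} {S : ℝ} (hS : 0 ≤ S) (h : sqg g x ≤ S ^ 2)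
    (i : Fin n) : |g (flip x i) - g x| ≤ 2 * S := by
  have h1 : (g (flip x i) - g x) ^ 2 ≤ ∑ j, (g (flip x j) - g x) ^ 2 :=
    Finset.single_le_sum (f := fun j => (g (flip x j) - g x) ^ 2) (fun j _ => sq_nonneg _)
      (Finset.mem_univ i)
  unfold sqg at h
  exact abs_le_of_sq_le_sq (by nlinarith) (by positivity)

/-- exponential moments of functions with a bounded gradient -/
theorem loc_exp (hJ : ∀ i j, J i j = J j i) {κ : ℝ} (hκ : 0 < κ) (hC : Curv J b κ)
    (g : Cfg n → ℝ) {S : ℝ} (hS0 : 0 ≤ S) (hS : ∀ y, sqg g y ≤ S ^ 2) {T : ℝ} (hT : 0 ≤ T)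
    (x : Cfg n) :
    PP J b T (fun y => Real.exp (g y)) x
      ≤ Real.exp (PP J b T g x + 2 * Real.exp (2 * S) * S ^ 2 / κ) := by
  have hR := rev_genMat (b := b) hJ
  set u : ℝ → Cfg n → ℝ := fun s => PP J b (T - s) g with hu
  set A : ℝ := 2 * Real.exp (2 * S) * S ^ 2 / κ with hA
  have hA0 : 0 ≤ A := by positivity
  have hu' : ∀ s z, HasDerivAt (fun r => u r z) (-gen J b (u s) z) s := fun s z => by
    rw [← act_genMat]
    exact back_deriv _ g T s z
  have key := flow hR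
    (fun s y => -1 * Real.exp (u s y - A * Real.exp (-(2 * κ * (T - s)))))
    (fun s y => -1 * (Real.exp (u s y - A * Real.exp (-(2 * κ * (T - s))))
      * (-gen J b (u s) y - A * (2 * κ * Real.exp (-(2 * κ * (T - s))))))) hT
    (fun s y => (((hu' s y).sub ((exp_back (2 * κ) T s).const_mul A)).exp).const_mul (-1))
    (fun s _ hs y => by
      rw [act_genMat, Semi.gen_smul, gen_eq b hJ, gen_eq b hJ]
      set E := Real.exp (-(2 * κ * (T - s))) with hE
      have hE1 : E ≤ 1 := Real.exp_le_one_iff.2 (by nlinarith)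
      have hE0 : 0 < E := Real.exp_pos _
      have h2 : sqg (u s) y ≤ E * S ^ 2 := (grad_le hJ hC g (sub_nonneg.2 hs) y).trans
        (mul_le_mul_of_nonneg_left (N150D.Ent.Pt_le hR (sub_nonneg.2 hs) hS y) hE0.le)
      have h3 : sqg (u s) y ≤ S ^ 2 := h2.trans (mul_le_of_le_one_left (sq_nonneg S) hE1)
      have h4 : ∀ i, rate J b y i * (Real.exp (u s (flip y i) - A * E) - Real.exp (u s y - A * E))
          ≤ Real.exp (u s y - A * E) * (rate J b y i * (u s (flip y i) - u s y)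
            + Real.exp (2 * S) * (rate J b y i * (u s (flip y i) - u s y) ^ 2)) := fun i => by
        have k1 := exp_quad (diff_le_of_sqg hS0 h3 i)
        have k2 : Real.exp (u s (flip y i) - A * E)
            = Real.exp (u s y - A * E) * Real.exp (u s (flip y i) - u s y) := by
          rw [← Real.exp_add]; congr 1; ring
        have k3 := mul_le_mul_of_nonneg_left k1
          (mul_pos (rate_pos (J := J) b y i) (Real.exp_pos (u s y - A * E))).le
        rw [k2]
        linarith only [k3]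
      have h5 := Finset.sum_le_sum fun i (_ : i ∈ univ) => h4 i
      rw [← Finset.mul_sum, Finset.sum_add_distrib, ← Finset.mul_sum] at h5
      have h6 := mul_le_mul_of_nonneg_left ((carre_le (J := J) (b := b) (u s) y).trans
        (mul_le_mul_of_nonneg_left h2 (by norm_num))) (Real.exp_pos (2 * S)).le
      have h7 : A * (2 * κ * E) = Real.exp (2 * S) * (4 * (E * S ^ 2)) := by
        rw [hA]; field_simp; ring
      have h8 := mul_le_mul_of_nonneg_left h6 (Real.exp_pos (u s y - A * E)).le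
      rw [h7]
      linarith only [h5, h8]) x
  have e1 : u 0 = PP J b T g := by simp [hu]
  have e2 : u T = g := by
    funext y
    simp [hu, N150D.Ent.Pt_zero]
  simp only [e1, e2, sub_self, mul_zero, neg_zero, Real.exp_zero, mul_one] at key
  rw [N150D.Ent.Pt_smul] at key
  have e3 : (fun y => Real.exp (g y - A)) = fun y => Real.exp (-A) * Real.exp (g y) := by
    funext y
    rw [← Real.exp_add]; congr 1; ring
  rw [e3, N150D.Ent.Pt_smul] at key
  have e4 : Real.exp (PP J b T g x - A * Real.exp (-(2 * κ * (T - 0))))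
      ≤ Real.exp (PP J b T g x) := Real.exp_le_exp.2 (by
    have : 0 ≤ A * Real.exp (-(2 * κ * (T - 0))) := by positivity
    linarith)
  have e5 : Real.exp (-A) * PP J b T (fun y => Real.exp (g y)) x ≤ Real.exp (PP J b T g x) := by
    linarith only [key, e4]
  have e6 := mul_le_mul_of_nonneg_left e5 (Real.exp_pos A).le
  rw [← mul_assoc, ← Real.exp_add, add_neg_cancel, Real.exp_zero, one_mul, ← Real.exp_add,
    add_comm] at e6
  exact e6

end Vale.Agent.P150.Cut
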