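import Vale.Agent.Q150.Curv

/-!
Under the curvature condition the entropy collapses soon after the total variation distance has
left the value one.
-/

open Finset

namespace Vale.Agent.P150.Cut

open Vale.Agent.P150.Low
open Vale.Agent.N150D (Rev act ker tv)
open Vale.Agent.N150D.Ent (act_genMat rev_genMat dn MLSI)

variable {n : ℕ} {J : Fin n → Fin n → ℝ} {b : Fin n → ℝ}

/-! ### Short times -/

lemma shift_eq (hJ : ∀ i j, J i j = J j i) (g : Cfg n → ℝ) (y : Cfg n) :
    gen J b g y + n * g y = ∑ i, (rate J b y i * g (flip y i) + (1 - rate J b y i) * g y) := by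
  have e : (n : ℝ) * g y = ∑ _i : Fin n, g y := by simp
  rw [gen_eq b hJ, e, ← Finset.sum_add_distrib]
  exact Finset.sum_congr rfl fun i _ => by ring

lemma shift_ge (hJ : ∀ i j, J i j = J j i) {g : Cfg n → ℝ} (hg : ∀ y, 0 ≤ g y) (y : Cfg n)
    (i : Fin n) : rate J b y i * g (flip y i) ≤ gen J b g y + n * g y := by
  have h0 : ∀ j, 0 ≤ (1 - rate J b y j) * g y := fun j =>
    mul_nonneg (sub_nonneg.2 (rate_le_one b y j)) (hg y)
  rw [shift_eq hJ]
  refine le_trans (le_add_of_nonneg_right (h0 i)) (Finset.single_le_sum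
    (f := fun j => rate J b y j * g (flip y j) + (1 - rate J b y j) * g y) (fun j _ => ?_)
    (Finset.mem_univ i))
  exact add_nonneg (mul_nonneg (rate_pos b y j).le (hg _)) (h0 j)

lemma shift_nonneg (hJ : ∀ i j, J i j = J j i) {g : Cfg n → ℝ} (hg : ∀ y, 0 ≤ g y) (y : Cfg n) :
    0 ≤ gen J b g y + n * g y := by
  rw [shift_eq hJ]
  exact Finset.sum_nonneg fun j _ => add_nonneg (mul_nonneg (rate_pos b y j).le (hg _))
    (mul_nonneg (sub_nonneg.2 (rate_le_one b y j)) (hg y))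

/-- at most one ring -/
lemma PP_lower (hJ : ∀ i j, J i j = J j i) {g : Cfg n → ℝ} (hg : ∀ y, 0 ≤ g y) {T : ℝ}
    (hT : 0 ≤ T) (x : Cfg n) :
    Real.exp (-(n * T)) * (g x + T * (gen J b g x + n * g x)) ≤ PP J b T g x := by
  have hR := rev_genMat (b := b) hJ
  set k : Cfg n → ℝ := fun y => gen J b g y + n * g y with hk
  have hk0 : ∀ y, 0 ≤ k y := shift_nonneg hJ hg
  have key := flow hR (fun s y => Real.exp (-(n * (T - s))) * (g y + (T - s) * k y))
    (fun s y => n * Real.exp (-(n * (T - s))) * (g y + (T - s) * k y)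
      + Real.exp (-(n * (T - s))) * (-1 * k y)) hT
    (fun s y => (exp_back n T s).mul
      ((((hasDerivAt_id s).const_sub T).mul_const (k y)).const_add (g y)))
    (fun s _ hs y => by
      rw [act_genMat, Semi.gen_smul, Semi.gen_add, Semi.gen_smul]
      have h1 := mul_nonneg (Real.exp_pos (-(n * (T - s)))).le
        (mul_nonneg (sub_nonneg.2 hs) (shift_nonneg (b := b) hJ hk0 y))
      have h2 : k y = gen J b g y + n * g y := rfl
      have h3 : Real.exp (-(n * (T - s))) * (gen J b g y + n * g y - k y) = 0 := by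
        rw [h2, sub_self, mul_zero]
      linarith only [h1, h3]) x
  simpa using key

lemma PP_stay (hJ : ∀ i j, J i j = J j i) {g : Cfg n → ℝ} (hg : ∀ y, 0 ≤ g y) {T : ℝ}
    (hT : 0 ≤ T) (x : Cfg n) : Real.exp (-(n * T)) * g x ≤ PP J b T g x :=
  le_trans (mul_le_mul_of_nonneg_left
    (le_add_of_nonneg_right (mul_nonneg hT (shift_nonneg hJ hg x))) (Real.exp_pos _).le)
    (PP_lower hJ hg hT x)

lemma PP_jump (hJ : ∀ i j, J i j = J j i) {g : Cfg n → ℝ} (hg : ∀ y, 0 ≤ g y) {T : ℝ}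
    (hT : 0 ≤ T) (x : Cfg n) (i : Fin n) :
    Real.exp (-(n * T)) * (T * (rate J b x i * g (flip x i))) ≤ PP J b T g x :=
  le_trans (mul_le_mul_of_nonneg_left
    (le_add_of_nonneg_of_le (hg x) (mul_le_mul_of_nonneg_left (shift_ge hJ hg x i) hT))
    (Real.exp_pos _).le) (PP_lower hJ hg hT x)

lemma PP_single (t : ℝ) (x y : Cfg n) :
    PP J b t (fun z => if z = y then 1 else 0) x = ker (genMat J b) t x y := by
  simp [PP, N150D.Ent.Pt]

/-- the kernel is positive at positive times -/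
lemma ker_pos (hJ : ∀ i j, J i j = J j i) (x : Cfg n) (k : ℕ) : ∀ y : Cfg n,
    (univ.filter fun i => x i ≠ y i).card = k → ∀ t, 0 < t → 0 < ker (genMat J b) t x y := by
  have hR := rev_genMat (b := b) hJ
  have h01 : ∀ y z : Cfg n, (0 : ℝ) ≤ if z = y then 1 else 0 := fun y z => by
    split_ifs <;> norm_num
  induction k with
  | zero =>
    intro y hy t ht
    have e : x = y := by
      funext i
      by_contra hi
      have : i ∈ univ.filter fun i => x i ≠ y i := by simpa using hi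
      rw [Finset.card_eq_zero.1 hy] at this
      simp at this
    subst e
    have := PP_stay (b := b) hJ (h01 x) ht.le x
    rw [PP_single, if_pos rfl, mul_one] at this
    exact (Real.exp_pos _).trans_le this
  | succ k ih =>
    intro y hy t ht
    obtain ⟨i, hi⟩ := Finset.card_pos.1 (show 0 < (univ.filter fun i => x i ≠ y i).card by omega)
    have hi' : x i ≠ y i := by simpa using hi
    have hz : (univ.filter fun j => x j ≠ flip y i j) = (univ.filter fun j => x j ≠ y j).erase i := by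
      ext j
      rw [Finset.mem_erase, Finset.mem_filter, Finset.mem_filter]
      by_cases hj : j = i
      · subst hj
        have e : flip y j j = !y j := Function.update_self _ _ _
        have e2 : x j = !y j := Bool.eq_not_iff.2 hi'
        simp [e, e2]
      · have e : flip y i j = y j := Function.update_of_ne hj _ _
        simp [e, hj]
    have h1 := ih (flip y i) (by rw [hz, Finset.card_erase_of_mem hi, hy]; rfl) (t / 2)
      (half_pos ht)
    have h2 := PP_jump (b := b) hJ (h01 y) (half_pos ht).le (flip y i) i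
    rw [PP_single, flip_flip, if_pos rfl, mul_one] at h2
    have h3 : 0 < ker (genMat J b) (t / 2) (flip y i) y :=
      lt_of_lt_of_le (mul_pos (Real.exp_pos _) (mul_pos (half_pos ht) (rate_pos b _ _))) h2
    rw [show t = t / 2 + t / 2 by ring, N150D.ker_add, Matrix.mul_apply]
    refine lt_of_lt_of_le (mul_pos h1 h3) (Finset.single_le_sum
      (f := fun z => ker (genMat J b) (t / 2) x z * ker (genMat J b) (t / 2) z y)
      (fun z _ => ?_) (Finset.mem_univ _))
    exact mul_nonneg (hR.ker_nonneg (half_pos ht).le _ _) (hR.ker_nonneg (half_pos ht).le _ _)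

lemma dn_pos (hJ : ∀ i j, J i j = J j i) (x : Cfg n) {t : ℝ} (ht : 0 < t) (y : Cfg n) :
    0 < dn (genMat J b) (gibbs J b) x t y :=
  div_pos (ker_pos hJ x _ y rfl t ht) (gibbs_pos J b y)

lemma rate_ge (hJ : ∀ i j, J i j = J j i) {y : Cfg n} {i : Fin n} {l : ℝ}
    (h : |locField J b y i| ≤ l) : 1 ≤ (1 + Real.exp (2 * l)) * rate J b y i := by
  rw [rate_exp b hJ]
  set z := 2 * sp (y i) * locField J b y i with hz
  have h1 : z ≤ 2 * l := by
    have : |z| ≤ 2 * l := by
      rw [hz, abs_mul, abs_mul, abs_sp]; norm_num; exact h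
    exact (le_abs_self z).trans this
  have h2 : 1 ≤ Real.exp (2 * l) * Real.exp (-z) := by
    rw [← Real.exp_add]
    exact Real.one_le_exp (by linarith)
  have h3 := Real.exp_pos (-z)
  rw [← mul_div_assoc, le_div_iff₀ (by positivity)]
  linarith

/-- a set from which one flip is very unlikely to have been made has a small mass -/
lemma mass_small (hJ : ∀ i j, J i j = J j i) (p : Cfg n → Prop) [DecidablePred p] (i : Fin n)
    (x : Cfg n) {t r l q : ℝ} (hr : 0 < r) (hrt : r ≤ t) (hq : 0 ≤ q)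
    (h1 : ∀ y, p y → |locField J b y i| ≤ l)
    (h2 : ∀ y, p y → ker (genMat J b) t x (flip y i) ≤ q * ker (genMat J b) t x y) :
    PP J b t (fun y => if p y then 1 else 0) x
      ≤ n * r + (1 + Real.exp (2 * l)) * Real.exp (n * r) * q / r := by
  have hR := rev_genMat (b := b) hJ
  set φ : Cfg n → ℝ := fun y => if p y then 1 else 0 with hφ
  have φ0 : ∀ y, 0 ≤ φ y := fun y => by simp only [hφ]; split_ifs <;> norm_num
  have φ1 : ∀ y, φ y ≤ 1 := fun y => by simp only [hφ]; split_ifs <;> norm_num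
  have ht : 0 ≤ t - r := sub_nonneg.2 hrt
  have et : t = (t - r) + r := by ring
  set c := (1 + Real.exp (2 * l)) * Real.exp (n * r) / r with hc
  have hc0 : 0 ≤ c := by positivity
  have a1 : ∀ y, PP J b r φ y ≤ n * r + c * PP J b r (fun z => φ (flip z i)) y := by
    intro y
    have b1 := PP_stay (b := b) hJ (g := fun z => -1 * φ z + 1) (fun z => by linarith [φ1 z])
      hr.le y
    rw [PP, N150D.Ent.Pt_add, N150D.Ent.Pt_smul, Pt_const hR] at b1
    have b2 := PP_jump (b := b) hJ (g := fun z => φ (flip z i)) (fun z => φ0 _) hr.le y i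
    rw [flip_flip] at b2
    have b3 := mul_le_mul_of_nonneg_left b2 hc0
    have b4 := Real.add_one_le_exp (-(n * r))
    by_cases hy : p y
    · have e1 : φ y = 1 := if_pos hy
      have b5 := rate_ge hJ (h1 y hy)
      have b6 : c * (Real.exp (-(n * r)) * (r * (rate J b y i * φ y)))
          = (1 + Real.exp (2 * l)) * rate J b y i := by
        rw [hc, e1, Real.exp_neg]
        field_simp
      have b7 : 0 ≤ (n : ℝ) * r := by positivity
      rw [e1] at b1
      linarith only [b1, b3, b5, b6, b7]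
    · have e1 : φ y = 0 := if_neg hy
      rw [e1] at b1 b3
      linarith only [b1, b3, b4]
  have a2 : PP J b t (fun z => φ (flip z i)) x ≤ q := by
    have e : PP J b t (fun z => φ (flip z i)) x = ∑ y, ker (genMat J b) t x (flip y i) * φ y := by
      rw [← sum_flip i fun y => ker (genMat J b) t x (flip y i) * φ y]
      simp only [flip_flip]
      rfl
    rw [e]
    calc ∑ y, ker (genMat J b) t x (flip y i) * φ y ≤ ∑ y, q * ker (genMat J b) t x y := by
          refine Finset.sum_le_sum fun y _ => ?_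
          by_cases hy : p y
          · rw [show φ y = 1 from if_pos hy, mul_one]
            exact h2 y hy
          · rw [show φ y = 0 from if_neg hy, mul_zero]
            exact mul_nonneg hq (hR.ker_nonneg (hr.le.trans hrt) x y)
      _ = q := by rw [← Finset.mul_sum, hR.ker_row, mul_one]
  have a3 := Pt_mono hR ht a1 x
  rw [N150D.Ent.Pt_add, Pt_const hR, N150D.Ent.Pt_smul, ← N150D.Ent.Pt_Pt, ← N150D.Ent.Pt_Pt,
    ← et] at a3
  have a4 := mul_le_mul_of_nonneg_left a2 hc0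
  have a5 : c * q = (1 + Real.exp (2 * l)) * Real.exp (n * r) * q / r := by rw [hc]; ring
  linarith only [a3, a4, a5]

/-! ### The local fields -/

lemma locField_flip_self (y : Cfg n) (i : Fin n) :
    locField J b (flip y i) i = locField J b y i := by
  unfold locField
  congr 1
  refine Finset.sum_congr rfl fun j _ => ?_
  by_cases h : j = i
  · rw [if_pos h, if_pos h]
  · rw [if_neg h, if_neg h, sp_flip_ne y h]

lemma sqg_field (hr : ∀ i, ∑ j, Jo J i j ^ 2 ≤ 1) (c : ℝ) (i : Fin n) (y : Cfg n) :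
    sqg (fun z => c * locField J b z i) y ≤ c ^ 2 := by
  have e : ∀ j, (c * locField J b (flip y j) i - c * locField J b y i) ^ 2
      = 4 * c ^ 2 * Jo J i j ^ 2 := by
    intro j
    by_cases h : i = j
    · subst h
      rw [locField_flip_self]
      simp [Jo]
    · rw [locField_flip_ne b y h]
      linear_combination (4 * c ^ 2 * Jo J i j ^ 2) * sp_pow (y j)
  unfold sqg
  simp only [e, ← Finset.mul_sum]
  nlinarith [mul_le_mul_of_nonneg_left (hr i) (sq_nonneg c)]

lemma var_eq (hJ : ∀ i j, J i j = J j i) (t : ℝ) (x : Cfg n) (f : Cfg n → ℝ) :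
    ∑ y, ker (genMat J b) t x y * (f y - PP J b t f x) ^ 2
      = PP J b t (fun z => f z ^ 2) x - PP J b t f x ^ 2 := by
  have hR := rev_genMat (b := b) hJ
  set m := PP J b t f x with hm
  have h1 : ∀ y, ker (genMat J b) t x y * (f y - m) ^ 2 = ker (genMat J b) t x y * f y ^ 2
      - 2 * m * (ker (genMat J b) t x y * f y) + m ^ 2 * ker (genMat J b) t x y := fun y => by ring
  simp only [h1, Finset.sum_add_distrib, Finset.sum_sub_distrib, ← Finset.mul_sum]
  rw [hR.ker_row]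
  have h2 : ∑ y, ker (genMat J b) t x y * f y = m := rfl
  have h3 : ∑ y, ker (genMat J b) t x y * f y ^ 2 = PP J b t (fun z => f z ^ 2) x := rfl
  rw [h2, h3]
  ring

/-- the mean of a local field is bounded once the distance has left one -/
lemma mean_le (hJ : ∀ i j, J i j = J j i) {κ : ℝ} (hκ : 0 < κ) (hC : Curv J b κ)
    (hr : ∀ i, ∑ j, Jo J i j ^ 2 ≤ 1) {V ε M t : ℝ}
    (hV : ∀ i, ex J b (fun y => locField J b y i ^ 2) ≤ V) (hε : 0 < ε) (hM : 0 ≤ M)
    (hMe : 4 * (2 / κ + V) ≤ ε * M ^ 2) (ht : 0 ≤ t) {x : Cfg n}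
    (htv : tv (genMat J b) (gibbs J b) t x ≤ 1 - ε) (i : Fin n) {c : ℝ} (hc : c ^ 2 = 1) :
    PP J b t (fun y => c * locField J b y i) x ≤ M := by
  have hR := rev_genMat (b := b) hJ
  by_contra hcon
  push Not at hcon
  set f : Cfg n → ℝ := fun y => c * locField J b y i with hf
  set m := PP J b t f x with hm
  have hm0 : 0 < m := hM.trans_lt hcon
  have h1 := tv_lower (fun y => ker (genMat J b) t x y) (gibbs J b) f (hR.ker_nonneg ht x)
    (fun y => (gibbs_pos J b y).le) (hR.ker_row t x) (gibbs_sum J b) hm0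
  have h2 : (1 / 2 : ℝ) * ∑ y, |ker (genMat J b) t x y - gibbs J b y| ≤ 1 - ε := htv
  have h3 : ∑ y, ker (genMat J b) t x y * (f y - m) ^ 2 ≤ 2 / κ := by
    rw [hm, var_eq hJ]
    refine (loc_poinc hJ hκ hC f ht x).trans (mul_le_of_le_one_right (by positivity) ?_)
    exact N150D.Ent.Pt_le hR ht (fun y => (sqg_field hr c i y).trans hc.le) x
  have h4 : ∑ y, gibbs J b y * f y ^ 2 ≤ V := by
    refine le_trans (le_of_eq ?_) (hV i)
    exact Finset.sum_congr rfl fun y _ => by simp only [hf]; rw [mul_pow, hc, one_mul]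
  have h5 : 0 < 4 / m ^ 2 := by positivity
  have h6 := mul_le_mul_of_nonneg_left h3 h5.le
  have h7 := mul_le_mul_of_nonneg_left h4 h5.le
  have h8 : ε ≤ 4 / m ^ 2 * (2 / κ + V) := by linarith only [h1, h2, h6, h7]
  rw [div_mul_eq_mul_div, le_div_iff₀ (by positivity)] at h8
  have h9 : M ^ 2 < m ^ 2 := by nlinarith
  nlinarith

/-- the tail of a local field -/
lemma tail_le (hJ : ∀ i j, J i j = J j i) {κ : ℝ} (hκ : 0 < κ) (hC : Curv J b κ)
    (hr : ∀ i, ∑ j, Jo J i j ^ 2 ≤ 1) {M t θ l : ℝ} (ht : 0 ≤ t) (hθ : 0 ≤ θ) {x : Cfg n}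
    (i : Fin n) (hm : ∀ c : ℝ, c ^ 2 = 1 → PP J b t (fun y => c * locField J b y i) x ≤ M) :
    PP J b t (fun y => if l < |locField J b y i| then 1 else 0) x
      ≤ 2 * Real.exp (-(θ * (l - M)) + 2 * Real.exp (2 * θ) * θ ^ 2 / κ) := by
  have hR := rev_genMat (b := b) hJ
  have h1 : ∀ c : ℝ, c ^ 2 = 1 →
      PP J b t (fun y => Real.exp (-(θ * l)) * Real.exp (θ * c * locField J b y i)) x
      ≤ Real.exp (-(θ * (l - M)) + 2 * Real.exp (2 * θ) * θ ^ 2 / κ) := by
    intro c hc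
    have a1 := loc_exp hJ hκ hC (fun y => θ * c * locField J b y i) hθ
      (fun y => (sqg_field hr _ i y).trans (by rw [mul_pow, hc, mul_one])) ht x
    have a2 : PP J b t (fun y => θ * c * locField J b y i) x ≤ θ * M := by
      simp only [mul_assoc]
      rw [PP, N150D.Ent.Pt_smul]
      exact mul_le_mul_of_nonneg_left (hm c hc) hθ
    rw [PP, N150D.Ent.Pt_smul]
    refine (mul_le_mul_of_nonneg_left a1 (Real.exp_pos _).le).trans ?_
    rw [← Real.exp_add]
    exact Real.exp_le_exp.2 (by linarith)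
  have h2 := Pt_mono hR ht (f := fun y => if l < |locField J b y i| then 1 else 0)
    (g := fun y => Real.exp (-(θ * l)) * Real.exp (θ * 1 * locField J b y i)
      + Real.exp (-(θ * l)) * Real.exp (θ * -1 * locField J b y i)) (fun y => by
      have p1 : 0 < Real.exp (-(θ * l)) * Real.exp (θ * 1 * locField J b y i) := by positivity
      have p2 : 0 < Real.exp (-(θ * l)) * Real.exp (θ * -1 * locField J b y i) := by positivity
      split_ifs with h
      · rcases lt_abs.1 h with h | h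
        · have : 1 ≤ Real.exp (-(θ * l)) * Real.exp (θ * 1 * locField J b y i) := by
            rw [← Real.exp_add]
            exact Real.one_le_exp (by nlinarith)
          linarith
        · have : 1 ≤ Real.exp (-(θ * l)) * Real.exp (θ * -1 * locField J b y i) := by
            rw [← Real.exp_add]
            exact Real.one_le_exp (by nlinarith)
          linarith
      · linarith) x
  rw [N150D.Ent.Pt_add] at h2
  linarith only [h2, h1 1 (by norm_num), h1 (-1) (by norm_num)]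

/-! ### The variance of the logarithm of the density -/

lemma log_edge {a c R : ℝ} (ha : 0 < a) (hc : 0 < c) (hR : 0 ≤ R) (h : Real.exp (-R) * a ≤ c) :
    a * (Real.log c - Real.log a) ^ 2 ≤ (1 + R) * ((c - a) * (Real.log c - Real.log a)) := by
  set d := Real.log c - Real.log a with hd
  have e : c = a * Real.exp d := by
    rw [hd, Real.exp_sub, Real.exp_log hc, Real.exp_log ha]
    field_simp
  have h1 : -R ≤ d := by
    rw [e, mul_comm] at h
    exact Real.exp_le_exp.1 (le_of_mul_le_mul_left h ha)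
  have h2 : d ^ 2 ≤ (1 + R) * ((Real.exp d - 1) * d) := by
    have k1 := Real.add_one_le_exp d
    rcases le_total 0 d with h0 | h0
    · have k2 : d * d ≤ (Real.exp d - 1) * d := mul_le_mul_of_nonneg_right (by linarith) h0
      nlinarith [mul_nonneg h0 h0]
    · have k2 := Real.add_one_le_exp (-d)
      have k3 : Real.exp d * Real.exp (-d) = 1 := by rw [← Real.exp_add]; simp
      have k4 := Real.exp_pos d
      have k5 : Real.exp d ≤ 1 := Real.exp_le_one_iff.2 h0
      have k6 : (1 - d) * Real.exp d ≤ 1 := by nlinarith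
      have k7 : -d ≤ (1 + R) * (1 - Real.exp d) := by nlinarith
      nlinarith
  have h3 := mul_le_mul_of_nonneg_left h2 ha.le
  calc a * d ^ 2 ≤ a * ((1 + R) * ((Real.exp d - 1) * d)) := h3
    _ = (1 + R) * ((a * Real.exp d - a) * d) := by ring
    _ = _ := by rw [← e]

lemma dn_le (hJ : ∀ i j, J i j = J j i) {K : ℝ} (hmin : ∀ y, -Real.log (gibbs J b y) ≤ K)
    (x : Cfg n) {t : ℝ} (ht : 0 ≤ t) (y : Cfg n) :
    dn (genMat J b) (gibbs J b) x t y ≤ Real.exp K := by
  have hR := rev_genMat (b := b) hJ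
  rw [N150D.Ent.dn_eq hR]
  exact N150D.Ent.Pt_le hR ht (N150D.Ent.dn_zero_le hR x (hmin x)) y

/-- the gradient of the positive part of the logarithm of the density -/
lemma sqg_log (hJ : ∀ i j, J i j = J j i) (hmin : ∀ y, -Real.log (gibbs J b y) ≤ 4 * n)
    (x : Cfg n) {t r l R p : ℝ} (hr : 0 < r) (hrt : r ≤ t) (hR0 : 0 ≤ R)
    (hp : ∀ i, PP J b t (fun y => if l < |locField J b y i| then 1 else 0) x ≤ p)
    (hbad : 4 * (n : ℝ) ^ 3 * (p + (n * r + (1 + Real.exp (2 * l)) * Real.exp (n * r)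
      * Real.exp (2 * l - R) / r)) ≤ 1) :
    PP J b t (sqg fun y => max (Real.log (dn (genMat J b) (gibbs J b) x t y)) 0) x
      ≤ (1 + R) * (1 + Real.exp (2 * l)) * dir J b (dn (genMat J b) (gibbs J b) x t)
        (fun y => Real.log (dn (genMat J b) (gibbs J b) x t y)) + 1 := by
  classical
  have hR := rev_genMat (b := b) hJ
  have ht : 0 < t := hr.trans_le hrt
  set f := dn (genMat J b) (gibbs J b) x t with hf
  have f0 : ∀ y, 0 < f y := dn_pos hJ x ht
  set g : Cfg n → ℝ := fun y => max (Real.log (f y)) 0 with hg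
  set ν : Cfg n → ℝ := fun y => ker (genMat J b) t x y with hν
  have ν0 : ∀ y, 0 ≤ ν y := hR.ker_nonneg ht.le x
  have hνf : ∀ y, ν y = gibbs J b y * f y := fun y =>
    (mul_div_cancel₀ _ (gibbs_pos J b y).ne').symm
  have g0 : ∀ y, 0 ≤ g y := fun y => le_max_right _ _
  have g1 : ∀ y, g y ≤ 4 * n := fun y => max_le
    ((Real.log_le_iff_le_exp (f0 y)).2 (dn_le hJ hmin x ht.le y)) (by positivity)
  set K := (1 + R) * (1 + Real.exp (2 * l)) with hK
  have hK0 : 0 ≤ K := by positivity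
  set P : Fin n → Cfg n → Prop :=
    fun i y => |locField J b y i| ≤ l ∧ f (flip y i) < Real.exp (-R) * f y with hP
  set w : Fin n → Cfg n → ℝ := fun i y => gibbs J b y * gibbs J b (flip y i)
    / (gibbs J b y + gibbs J b (flip y i))
    * ((f (flip y i) - f y) * (Real.log (f (flip y i)) - Real.log (f y))) with hw
  have hw' : ∀ i y, w i y = gibbs J b y * (rate J b y i
      * ((f (flip y i) - f y) * (Real.log (f (flip y i)) - Real.log (f y)))) := fun i y => by
    simp only [hw, rate]; ring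
  have hinc : ∀ i y, 0 ≤ (f (flip y i) - f y) * (Real.log (f (flip y i)) - Real.log (f y)) :=
    fun i y => N150D.Ent.log_inc (f0 _) (f0 _)
  have w0 : ∀ i y, 0 ≤ w i y := fun i y => by
    rw [hw']
    exact mul_nonneg (gibbs_pos J b y).le (mul_nonneg (rate_pos b y i).le (hinc i y))
  have edge : ∀ i y, ν y * (g (flip y i) - g y) ^ 2 ≤ K * w i y
      + 16 * (n : ℝ) ^ 2 * (ν y * (if l < |locField J b y i| then 1 else 0)
        + ν y * (if P i y then 1 else 0)) := by
    intro i y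
    have big : ν y * (g (flip y i) - g y) ^ 2 ≤ 16 * (n : ℝ) ^ 2 * ν y := by
      have k1 : (g (flip y i) - g y) ^ 2 ≤ (4 * n) ^ 2 :=
        sq_le_sq' (by linarith [g0 (flip y i), g1 y]) (by linarith [g1 (flip y i), g0 y])
      have k2 := mul_le_mul_of_nonneg_left k1 (ν0 y)
      linarith only [k2]
    have kw := mul_nonneg hK0 (w0 i y)
    have n0 : 0 ≤ 16 * (n : ℝ) ^ 2 * ν y := mul_nonneg (by positivity) (ν0 y)
    by_cases h1 : l < |locField J b y i|
    · have h2 : ¬ P i y := fun h => absurd h.1 (not_le.2 h1)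
      rw [if_pos h1, if_neg h2]
      linarith only [big, kw]
    by_cases h2 : P i y
    · rw [if_neg h1, if_pos h2]
      linarith only [big, kw]
    rw [if_neg h1, if_neg h2]
    have h3 : |locField J b y i| ≤ l := not_lt.1 h1
    have h4 : Real.exp (-R) * f y ≤ f (flip y i) := not_lt.1 fun h => h2 ⟨h3, h⟩
    have k1 := log_edge (f0 y) (f0 _) hR0 h4
    have k2 : (g (flip y i) - g y) ^ 2 ≤ (Real.log (f (flip y i)) - Real.log (f y)) ^ 2 :=
      sq_le_sq.2 (abs_max_sub_max_le_abs _ _ _)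
    have k3 := mul_le_mul_of_nonneg_left k2 (f0 y).le
    have k4 := mul_le_mul_of_nonneg_right (rate_ge hJ h3) (hinc i y)
    have k5 := mul_le_mul_of_nonneg_left k4 (show 0 ≤ 1 + R by linarith)
    have k6 : f y * (g (flip y i) - g y) ^ 2 ≤ K * (rate J b y i
        * ((f (flip y i) - f y) * (Real.log (f (flip y i)) - Real.log (f y)))) := by
      rw [hK]
      linarith only [k1, k3, k5]
    have k7 := mul_le_mul_of_nonneg_left k6 (gibbs_pos J b y).le
    rw [hw', hνf]
    linarith only [k7]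
  set q := n * r + (1 + Real.exp (2 * l)) * Real.exp (n * r) * Real.exp (2 * l - R) / r with hq
  have hq' : ∀ i, ∑ y, ν y * (if P i y then 1 else 0) ≤ q := fun i =>
    mass_small hJ (P i) i x hr hrt (Real.exp_pos _).le (fun y h => h.1) fun y h => by
      have k1 : ν (flip y i) ≤ Real.exp (2 * l - R) * ν y := by
        rw [hνf, hνf, gibbs_flip hJ]
        have k2 : Real.exp (-(2 * sp (y i) * locField J b y i)) ≤ Real.exp (2 * l) := by
          refine Real.exp_le_exp.2 ((neg_le_abs _).trans ?_)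
          rw [abs_mul, abs_mul, abs_sp]; norm_num; exact h.1
        have k3 := mul_le_mul k2 h.2.le (f0 _).le (Real.exp_pos _).le
        have k4 := mul_le_mul_of_nonneg_left k3 (gibbs_pos J b y).le
        rw [sub_eq_add_neg, Real.exp_add]
        linarith only [k4]
      exact k1
  have hsum : ∀ i, ∑ y, ν y * (g (flip y i) - g y) ^ 2
      ≤ K * ∑ y, w i y + 16 * (n : ℝ) ^ 2 * (p + q) := fun i => by
    have k1 := Finset.sum_le_sum fun y (_ : y ∈ univ) => edge i y
    rw [Finset.sum_add_distrib, ← Finset.mul_sum, ← Finset.mul_sum, Finset.sum_add_distrib] at k1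
    have k2 : ∑ y, ν y * (if l < |locField J b y i| then 1 else 0) ≤ p := hp i
    have k3 := mul_le_mul_of_nonneg_left (add_le_add k2 (hq' i))
      (show 0 ≤ 16 * (n : ℝ) ^ 2 by positivity)
    linarith only [k1, k3]
  have htot := Finset.sum_le_sum fun i (_ : i ∈ univ) => hsum i
  rw [Finset.sum_add_distrib, ← Finset.mul_sum, Finset.sum_const, Finset.card_univ,
    Fintype.card_fin, nsmul_eq_mul] at htot
  have e1 : PP J b t (sqg g) x = (1 / 4) * ∑ i, ∑ y, ν y * (g (flip y i) - g y) ^ 2 := by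
    rw [Finset.sum_comm, Finset.mul_sum]
    refine Finset.sum_congr rfl fun y _ => ?_
    rw [← Finset.mul_sum]
    unfold sqg
    ring
  have e2 : dir J b f (fun y => Real.log (f y)) = (1 / 2) * ∑ i, ∑ y, w i y := dir_eq hJ b _ _
  have e3 : 0 ≤ K * ∑ i, ∑ y, w i y :=
    mul_nonneg hK0 (Finset.sum_nonneg fun i _ => Finset.sum_nonneg fun y _ => w0 i y)
  rw [e1, e2]
  linarith only [htot, hbad, e3]

/-- a lower bound on the variance: with probability `ε / 2` the density is at most `2 / ε` -/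
lemma var_lower (hJ : ∀ i j, J i j = J j i) (x : Cfg n) {t ε : ℝ} (ht : 0 < t) (hε : 0 < ε)
    (hε1 : ε ≤ 1) (htv : tv (genMat J b) (gibbs J b) t x ≤ 1 - ε) {W : ℝ}
    (hW : PP J b t (fun y => max (Real.log (dn (genMat J b) (gibbs J b) x t y)) 0 ^ 2) x
      - PP J b t (fun y => max (Real.log (dn (genMat J b) (gibbs J b) x t y)) 0) x ^ 2 ≤ W)
    {a : ℝ} (ha : 0 < a) :
    ex J b (fun y => dn (genMat J b) (gibbs J b) x t y
      * Real.log (dn (genMat J b) (gibbs J b) x t y))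
      ≤ Real.log (2 / ε) + a * W + 1 / (2 * a * ε) := by
  classical
  have hR := rev_genMat (b := b) hJ
  set f := dn (genMat J b) (gibbs J b) x t with hf
  have f0 : ∀ y, 0 < f y := dn_pos hJ x ht
  set g : Cfg n → ℝ := fun y => max (Real.log (f y)) 0 with hg
  set ν : Cfg n → ℝ := fun y => ker (genMat J b) t x y with hν
  have ν0 : ∀ y, 0 ≤ ν y := hR.ker_nonneg ht.le x
  have ν1 : ∑ y, ν y = 1 := hR.ker_row t x
  have hνf : ∀ y, ν y = gibbs J b y * f y := fun y =>
    (mul_div_cancel₀ _ (gibbs_pos J b y).ne').symm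
  set m := PP J b t g x with hm
  set c := Real.log (2 / ε) with hc
  have hc0 : 0 ≤ c := Real.log_nonneg (by rw [le_div_iff₀ hε]; linarith)
  have h1 : ex J b (fun y => f y * Real.log (f y)) ≤ m := by
    refine Finset.sum_le_sum fun y _ => ?_
    rw [← mul_assoc, ← hνf]
    exact mul_le_mul_of_nonneg_left (le_max_left _ _) (ν0 y)
  rw [← var_eq hJ] at hW
  have hW0 : 0 ≤ W := le_trans (Finset.sum_nonneg fun y _ => mul_nonneg (ν0 y) (sq_nonneg _)) hW
  have hpos : 0 < 1 / (2 * a * ε) := by positivity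
  have haW := mul_nonneg ha.le hW0
  rcases le_total m c with hmc | hmc
  · linarith only [h1, hmc, hpos, haW]
  have h2 : ∀ y, (m - c) ^ 2 * (ν y - ((1 / 2) * |ν y - gibbs J b y|
      + (1 / 2) * (ν y - gibbs J b y) + ε / 2 * ν y)) ≤ ν y * (g y - m) ^ 2 := by
    intro y
    have k0 := ν0 y
    have k1 := le_abs_self (ν y - gibbs J b y)
    have k2 := neg_abs_le (ν y - gibbs J b y)
    rcases le_total (f y) (2 / ε) with h | h
    · have k3 : g y ≤ c := max_le (Real.log_le_log (f0 y) h) hc0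
      have k4 : (m - c) ^ 2 ≤ (g y - m) ^ 2 := by nlinarith
      have k5 := mul_le_mul_of_nonneg_left k4 k0
      have k6 : 0 ≤ (m - c) ^ 2 * ((1 / 2) * |ν y - gibbs J b y|
          + (1 / 2) * (ν y - gibbs J b y) + ε / 2 * ν y) :=
        mul_nonneg (sq_nonneg _) (by nlinarith)
      linarith only [k5, k6]
    · have k3 : gibbs J b y ≤ ε / 2 * ν y := by
        rw [hνf]
        rw [div_le_iff₀ hε] at h
        nlinarith [gibbs_pos J b y]
      have k4 : (m - c) ^ 2 * (ν y - ((1 / 2) * |ν y - gibbs J b y|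
          + (1 / 2) * (ν y - gibbs J b y) + ε / 2 * ν y)) ≤ 0 :=
        mul_nonpos_of_nonneg_of_nonpos (sq_nonneg _) (by linarith)
      exact k4.trans (mul_nonneg k0 (sq_nonneg _))
  have h3 := Finset.sum_le_sum fun y (_ : y ∈ univ) => h2 y
  rw [← Finset.mul_sum, Finset.sum_sub_distrib, Finset.sum_add_distrib, Finset.sum_add_distrib,
    ← Finset.mul_sum, ← Finset.mul_sum, ← Finset.mul_sum, Finset.sum_sub_distrib, ν1,
    gibbs_sum] at h3
  have h4 : (1 / 2 : ℝ) * ∑ y, |ν y - gibbs J b y| ≤ 1 - ε := htv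
  have h5 : (m - c) ^ 2 * (ε / 2) ≤ W :=
    le_trans (mul_le_mul_of_nonneg_left (by linarith only [h4]) (sq_nonneg _)) (h3.trans hW)
  have h6 : m - c ≤ a * ((m - c) ^ 2 * (ε / 2)) + 1 / (2 * a * ε) := by
    have k1 : a * ((m - c) ^ 2 * (ε / 2)) + 1 / (2 * a * ε) - (m - c)
        = (a * ε * (m - c) - 1) ^ 2 / (2 * a * ε) := by
      field_simp
      ring
    have k2 : 0 ≤ (a * ε * (m - c) - 1) ^ 2 / (2 * a * ε) := by positivity
    linarith only [k1, k2]
  have h7 := mul_le_mul_of_nonneg_left h5 ha.le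
  linarith only [h1, h6, h7]

lemma ode {H I : ℝ → ℝ} {T E a : ℝ} (ha : 0 < a)
    (hd : ∀ s, T ≤ s → HasDerivAt H (-I s) s) (hI : ∀ s, T ≤ s → H s ≤ E + a * I s) :
    H (T + 1) - E ≤ Real.exp (-(1 / a)) * (H T - E) := by
  set F : ℝ → ℝ := fun s => Real.exp (1 / a * s) * (H s - E) with hF
  have hd' : ∀ s, T ≤ s → HasDerivAt F (1 / a * Real.exp (1 / a * s) * (H s - E)
      + Real.exp (1 / a * s) * -I s) s := fun s hs =>
    (exp_deriv (1 / a) s).mul ((hd s hs).sub_const E)
  have hanti : AntitoneOn F (Set.Ici T) := by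
    apply antitoneOn_of_deriv_nonpos (convex_Ici T)
    · exact fun s hs => (hd' s hs).continuousAt.continuousWithinAt
    · intro s hs
      rw [interior_Ici] at hs
      exact (hd' s (le_of_lt hs)).differentiableAt.differentiableWithinAt
    · intro s hs
      rw [interior_Ici] at hs
      rw [(hd' s (le_of_lt hs)).deriv]
      have h4 : (1 / a) * (H s - E) ≤ I s := by
        rw [one_div, inv_mul_le_iff₀ ha]
        linarith only [hI s (le_of_lt hs)]
      have h5 := mul_le_mul_of_nonneg_left h4 (Real.exp_pos (1 / a * s)).le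
      linarith only [h5]
  have h0 : F (T + 1) ≤ F T := hanti (Set.mem_Ici.2 le_rfl) (Set.mem_Ici.2 (by linarith))
    (by linarith)
  have h1 := mul_le_mul_of_nonneg_left h0 (Real.exp_pos (-(1 / a * (T + 1)))).le
  simp only [hF] at h1
  rw [← mul_assoc, ← mul_assoc, ← Real.exp_add, ← Real.exp_add, neg_add_cancel, Real.exp_zero,
    one_mul, show -(1 / a * (T + 1)) + 1 / a * T = -(1 / a) by ring] at h1
  exact h1

/-- the deterministic estimate -/
theorem det (hJ : ∀ i j, J i j = J j i) {κ : ℝ} (hκ : 0 < κ) (hC : Curv J b κ)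
    (hr : ∀ i, ∑ j, Jo J i j ^ 2 ≤ 1) {V A ε M T r l R θ a : ℝ}
    (hV : ∀ i, ex J b (fun y => locField J b y i ^ 2) ≤ V) (hA : 0 < A)
    (hM : MLSI (genMat J b) (gibbs J b) A) (hmin : ∀ y, -Real.log (gibbs J b y) ≤ 4 * n)
    (hε : 0 < ε) (hε1 : ε ≤ 1) (hM0 : 0 ≤ M) (hMe : 4 * (2 / κ + V) ≤ ε * M ^ 2)
    (hr0 : 0 < r) (hrT : r ≤ T) (hR0 : 0 ≤ R) (hθ : 0 ≤ θ) (ha : 0 < a) (ha1 : a ≤ 1)
    (hbad : 4 * (n : ℝ) ^ 3 * (2 * Real.exp (-(θ * (l - M)) + 2 * Real.exp (2 * θ) * θ ^ 2 / κ)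
      + (n * r + (1 + Real.exp (2 * l)) * Real.exp (n * r) * Real.exp (2 * l - R) / r)) ≤ 1)
    {x : Cfg n} (htv : tv (genMat J b) (gibbs J b) T x ≤ 1 - ε) {s : ℝ} (hs : 0 ≤ s) :
    tv (genMat J b) (gibbs J b) (s + (T + 1)) x ^ 2 ≤ Real.exp (-(s / A))
      * (Real.log (2 / ε) + 1 + (1 + R) * (1 + Real.exp (2 * l)) / (a * ε * κ)
        + Real.exp (-(1 / a)) * (4 * n)) / 2 := by
  have hR := rev_genMat (b := b) hJ
  have hT : 0 < T := hr0.trans_le hrT
  set f : ℝ → Cfg n → ℝ := dn (genMat J b) (gibbs J b) x with hf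
  set H : ℝ → ℝ := fun t => ex J b (fun y => f t y * Real.log (f t y)) with hH
  set I : ℝ → ℝ := fun t => dir J b (f t) (fun y => Real.log (f t y)) with hI
  set K := (1 + R) * (1 + Real.exp (2 * l)) with hK
  have hK1 : 1 ≤ K := by
    have := Real.exp_pos (2 * l)
    rw [hK]
    nlinarith
  set E := Real.log (2 / ε) + 1 + K / (a * ε * κ) with hE
  have hE0 : 0 ≤ E := by
    have h1 : 0 ≤ Real.log (2 / ε) := Real.log_nonneg (by rw [le_div_iff₀ hε]; linarith)
    have h2 : 0 ≤ K / (a * ε * κ) := by positivity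
    linarith
  have hfP : ∀ t, f t = N150D.Ent.Pt (genMat J b) t (f 0) := fun t =>
    funext fun y => N150D.Ent.dn_eq hR x t y
  have h1 : ∀ t, T ≤ t → HasDerivAt H (-I t) t := fun t ht => by
    have := N150D.Ent.ent_deriv hR f t (fun y => by
      have k := N150D.Ent.Pt_deriv (L := genMat J b) (f 0) t y
      rw [← hfP] at k
      refine k.congr_of_eventuallyEq (Filter.Eventually.of_forall fun u => ?_)
      exact congrFun (hfP u) y) (dn_pos hJ x (hT.trans_le ht))
    rw [N150D.Ent.dir_genMat] at this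
    exact this
  have h2 : ∀ t, T ≤ t → H t ≤ E + a * I t := fun t ht => by
    have ht0 := hT.trans_le ht
    have k0 : tv (genMat J b) (gibbs J b) t x ≤ 1 - ε := (hR.tv_anti ht x).trans htv
    have k1 := sqg_log hJ hmin x hr0 (hrT.trans ht) hR0 (fun i => tail_le hJ hκ hC hr ht0.le hθ i
      fun c hc => mean_le hJ hκ hC hr hV hε hM0 hMe ht0.le k0 i hc) hbad
    have k2 := (loc_poinc hJ hκ hC _ ht0.le x).trans
      (mul_le_mul_of_nonneg_left k1 (by positivity : 0 ≤ 2 / κ))
    have k3 := var_lower hJ x ht0 hε hε1 k0 k2 (a := a * κ / (2 * K)) (by positivity)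
    have k4 : a * κ / (2 * K) * (2 / κ * (K * I t + 1)) = a * I t + a / K := by field_simp
    have k5 : 1 / (2 * (a * κ / (2 * K)) * ε) = K / (a * ε * κ) := by field_simp
    have k6 : a / K ≤ 1 := by rw [div_le_one (by linarith)]; linarith
    have k7 : H t ≤ Real.log (2 / ε) + a * κ / (2 * K) * (2 / κ * (K * I t + 1))
      + 1 / (2 * (a * κ / (2 * K)) * ε) := k3
    rw [k4, k5] at k7
    linarith only [k7, k6, hE]
  have h3 := ode ha h1 h2
  have hle : ∀ t, 0 ≤ t → ∀ y, f t y ≤ Real.exp (4 * n) := fun t ht => dn_le hJ hmin x ht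
  have h4 : H T ≤ 4 * n := N150D.Ent.ent_le hR (N150D.Ent.dn_nonneg hR x hT.le) (hle T hT.le)
    (N150D.Ent.Ex_dn hR x T)
  have h5 : H (T + 1) ≤ E + Real.exp (-(1 / a)) * (4 * n) := by
    have := mul_le_mul_of_nonneg_left (show H T - E ≤ 4 * n by linarith)
      (Real.exp_pos (-(1 / a))).le
    linarith
  have hT1 : 0 ≤ T + 1 := by linarith
  have h6 := N150D.Ent.decay' hR hA (K := 4 * n) (by positivity) (hM.lev _)
    (N150D.Ent.dn_nonneg hR x hT1) (hle _ hT1) (N150D.Ent.Ex_dn hR x _) hs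
  have e : N150D.Ent.Pt (genMat J b) s (f (T + 1)) = f (s + (T + 1)) := by
    funext y
    rw [hfP (s + (T + 1)), N150D.Ent.Pt_Pt, ← hfP]
  rw [e, sub_zero, sub_zero] at h6
  have h7 := N150D.Ent.pinsker hR (f (s + (T + 1))) (N150D.Ent.dn_nonneg hR x (by linarith))
    (N150D.Ent.Ex_dn hR x _)
  rw [← N150D.Ent.TV_eq hR] at h7
  have h8 := mul_le_mul_of_nonneg_left h5 (Real.exp_pos (-(s / A))).le
  have h9 : N150D.ex (gibbs J b) (fun y => f (T + 1) y * Real.log (f (T + 1) y)) = H (T + 1) := rfl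
  rw [h9] at h6
  nlinarith only [h6, h7, h8]

/-! ### The choice of the parameters -/

open Filter

lemma ev_sq (c : ℝ) {d : ℝ} (hd : 0 < d) : ∀ᶠ u : ℝ in atTop, c * u ^ 2 ≤ Real.exp (d * u) := by
  filter_upwards [eventually_ge_atTop 0, eventually_ge_atTop (6 * c / d ^ 3)] with u h0 h1
  have h2 := Real.pow_div_factorial_le_exp (d * u) (by positivity) 3
  rw [div_le_iff₀ (by positivity)] at h1
  have h3 := mul_le_mul_of_nonneg_right h1 (sq_nonneg u)
  norm_num [Nat.factorial] at h2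
  nlinarith

lemma ev_exp (c : ℝ) : ∀ᶠ u : ℝ in atTop, c ≤ Real.exp u :=
  Real.tendsto_exp_atTop.eventually_ge_atTop c

lemma bad_num {N E c : ℝ} (h1 : 100 ≤ N) (h2 : 1 ≤ E) (h3 : E ≤ N) (h4 : 24 * c ≤ N) :
    4 * N ^ 3 * (2 * (c * (N ^ 8)⁻¹) + ((N ^ 4)⁻¹ + (1 + E) * Real.exp ((N ^ 4)⁻¹)
      * (E * (N ^ 13)⁻¹) / (N ^ 5)⁻¹)) ≤ 1 := by
  have hN0 : 0 < N := by linarith
  have e4 : Real.exp ((N ^ 4)⁻¹) ≤ 3 := by
    have : (N ^ 4)⁻¹ ≤ 1 := inv_le_one_of_one_le₀ (one_le_pow₀ (by linarith))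
    exact (Real.exp_le_exp.2 this).trans Real.exp_one_lt_three.le
  have b1 : 4 * N ^ 3 * (2 * (c * (N ^ 8)⁻¹)) ≤ 1 / 3 := by
    have k1 : 4 * N ^ 3 * (2 * (c * (N ^ 8)⁻¹)) = 8 * c / N ^ 5 := by
      field_simp
      ring
    rw [k1, div_le_iff₀ (by positivity)]
    have k2 : N ≤ N ^ 5 := le_self_pow₀ (by linarith) (by norm_num)
    linarith
  have b2 : 4 * N ^ 3 * (N ^ 4)⁻¹ ≤ 1 / 3 := by
    have k1 : 4 * N ^ 3 * (N ^ 4)⁻¹ = 4 / N := by field_simp
    rw [k1, div_le_iff₀ hN0]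
    linarith
  have b3 : 4 * N ^ 3 * ((1 + E) * Real.exp ((N ^ 4)⁻¹) * (E * (N ^ 13)⁻¹) / (N ^ 5)⁻¹)
      ≤ 1 / 3 := by
    have k1 : (1 + E) * Real.exp ((N ^ 4)⁻¹) * (E * (N ^ 13)⁻¹)
        ≤ (2 * N) * 3 * (N * (N ^ 13)⁻¹) := by
      gcongr
      linarith
    have k2 : 4 * N ^ 3 * ((2 * N) * 3 * (N * (N ^ 13)⁻¹) / (N ^ 5)⁻¹) = 24 / N ^ 3 := by
      field_simp
      ring
    have k3 : N ≤ N ^ 3 := le_self_pow₀ (by linarith) (by norm_num)
    calc _ ≤ 4 * N ^ 3 * ((2 * N) * 3 * (N * (N ^ 13)⁻¹) / (N ^ 5)⁻¹) := by gcongr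
      _ ≤ 1 / 3 := by
        rw [k2, div_le_iff₀ (by positivity)]
        linarith
  linarith only [b1, b2, b3]

lemma fin_num {u E c0 κ ε z : ℝ} (hκ : 0 < κ) (hε : 0 < ε) (u1 : 1 ≤ u) (hE1 : 1 ≤ E)
    (hc : 0 ≤ c0) (hz : z ≤ 4) (u5 : (c0 + 5 + 56 / (ε * κ)) / ε ^ 2 * u ^ 2 ≤ E) :
    (E * E)⁻¹ * (c0 + 1 + (1 + 13 * u) * (1 + E) / (1 / (2 * u) * ε * κ) + z) / 2 ≤ ε ^ 2 := by
  have e3 : (1 + 13 * u) * (1 + E) / (1 / (2 * u) * ε * κ) ≤ 56 / (ε * κ) * u ^ 2 * E := by
    have k1 : (1 + 13 * u) * (1 + E) ≤ (14 * u) * (2 * E) := by gcongr <;> linarith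
    calc _ ≤ (14 * u) * (2 * E) / (1 / (2 * u) * ε * κ) := by gcongr
      _ = _ := by field_simp; ring
  have e4 : c0 + 5 ≤ (c0 + 5) * (u ^ 2 * E) :=
    le_mul_of_one_le_right (by linarith) (one_le_mul_of_one_le_of_one_le (one_le_pow₀ u1) hE1)
  rw [div_mul_eq_mul_div, div_le_iff₀ (by positivity)] at u5
  have k1 := mul_le_mul_of_nonneg_right u5 (show 0 ≤ E by linarith)
  have e6 : c0 + 1 + (1 + 13 * u) * (1 + E) / (1 / (2 * u) * ε * κ) + z ≤ (E * E) * ε ^ 2 := by
    linarith only [hz, e3, e4, k1]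
  have e7 := mul_le_mul_of_nonneg_left e6 (show 0 ≤ (E * E)⁻¹ by positivity)
  rw [inv_mul_cancel_left₀ (by positivity)] at e7
  linarith only [e7, sq_nonneg ε]

/-- the window is `o (log n)` -/
theorem window {κ V A ε δ : ℝ} (hκ : 0 < κ) (hA : 0 < A) (hV0 : 0 ≤ V) (hε : 0 < ε) (hε1 : ε < 1)
    (hδ : 0 < δ) : ∀ᶠ n : ℕ in atTop, ∀ (J : Fin n → Fin n → ℝ) (b : Fin n → ℝ),
      (∀ i j, J i j = J j i) → Curv J b κ → (∀ i, ∑ j, Jo J i j ^ 2 ≤ 1) →
      (∀ i, ex J b (fun y => locField J b y i ^ 2) ≤ V) → MLSI (genMat J b) (gibbs J b) A →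
      (∀ y, -Real.log (gibbs J b y) ≤ 4 * n) → 0 < gap J b →
      N150D.tmix (genMat J b) (gibbs J b) ε
        ≤ N150D.tmix (genMat J b) (gibbs J b) (1 - ε) + δ * Real.log n := by
  obtain ⟨d, hd0, hd1, hd2⟩ : ∃ d : ℝ, 0 < d ∧ d ≤ 1 / 4 ∧ 8 * A * d ≤ δ := by
    refine ⟨min (1 / 4) (δ / (8 * A)), lt_min (by norm_num) (by positivity), min_le_left _ _, ?_⟩
    have := min_le_right (1 / 4) (δ / (8 * A))
    rw [le_div_iff₀ (by positivity)] at this
    linarith
  obtain ⟨M, hM0, hMe⟩ : ∃ M : ℝ, 0 ≤ M ∧ 4 * (2 / κ + V) ≤ ε * M ^ 2 :=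
    ⟨√(4 * (2 / κ + V) / ε), Real.sqrt_nonneg _, by
      rw [Real.sq_sqrt (by positivity), mul_div_cancel₀ _ hε.ne']⟩
  obtain ⟨θ, hθ0, hθ⟩ : ∃ θ : ℝ, 0 ≤ θ ∧ θ * d = 8 :=
    ⟨8 / d, by positivity, div_mul_cancel₀ _ hd0.ne'⟩
  have hc00 : 0 ≤ Real.log (2 / ε) := Real.log_nonneg (by rw [le_div_iff₀ hε]; linarith)
  have hlog := Real.tendsto_log_atTop.comp (tendsto_natCast_atTop_atTop (R := ℝ))
  filter_upwards [eventually_gt_atTop 0, hlog.eventually (eventually_ge_atTop 1),
    hlog.eventually (eventually_ge_atTop (4 / δ)), hlog.eventually (ev_exp 100),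
    hlog.eventually (ev_exp (24 * Real.exp (θ * M + 2 * Real.exp (2 * θ) * θ ^ 2 / κ))),
    hlog.eventually (ev_sq ((Real.log (2 / ε) + 5 + 56 / (ε * κ)) / ε ^ 2)
      (show 0 < 2 * d by positivity))]
    with n hn u1 u2 u3 u4 u5 J b hJ hC hr hV hMl hmin hg
  simp only [Function.comp] at u1 u2 u3 u4 u5
  have hR := rev_genMat (b := b) hJ
  have hn' : (0 : ℝ) < n := by exact_mod_cast hn
  have hnu : (n : ℝ) = Real.exp (Real.log n) := (Real.exp_log hn').symm
  generalize Real.log n = u at *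
  have hne := hR.mixes (by rwa [N150D.Ent.gap_genMat]) (ε := 1 - ε) (by linarith)
  have ht00 := N150D.tmix_nonneg (genMat J b) (gibbs J b) (1 - ε)
  have htv := fun x => hR.tv_le_of_tmix_le hne (le_add_of_nonneg_right zero_le_one) x
  generalize N150D.tmix (genMat J b) (gibbs J b) (1 - ε) = t0 at *
  have pw : ∀ k : ℕ, Real.exp (-(k * u)) = (Real.exp u ^ k)⁻¹ := fun k => by
    rw [Real.exp_neg, Real.exp_nat_mul]
  have hE : Real.exp (2 * (d * u)) ≤ Real.exp u := Real.exp_le_exp.2 (by nlinarith)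
  generalize Real.exp u = N at *
  have hN0 : 0 < N := by linarith
  have hE1 : 1 ≤ Real.exp (2 * (d * u)) := Real.one_le_exp (by positivity)
  have hr1 : (N ^ 5)⁻¹ ≤ 1 := inv_le_one_of_one_le₀ (one_le_pow₀ (by linarith))
  have hbad : 4 * (n : ℝ) ^ 3 * (2 * Real.exp (-(θ * (d * u - M))
      + 2 * Real.exp (2 * θ) * θ ^ 2 / κ) + (n * (N ^ 5)⁻¹ + (1 + Real.exp (2 * (d * u)))
        * Real.exp (n * (N ^ 5)⁻¹) * Real.exp (2 * (d * u) - 13 * u) / (N ^ 5)⁻¹)) ≤ 1 := by
    have e1 : Real.exp (-(θ * (d * u - M)) + 2 * Real.exp (2 * θ) * θ ^ 2 / κ)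
        = Real.exp (θ * M + 2 * Real.exp (2 * θ) * θ ^ 2 / κ) * (N ^ 8)⁻¹ := by
      rw [← pw, ← Real.exp_add]
      congr 1
      push_cast
      linear_combination (-u) * hθ
    have e2 : Real.exp (2 * (d * u) - 13 * u) = Real.exp (2 * (d * u)) * (N ^ 13)⁻¹ := by
      rw [← pw, ← Real.exp_add]
      congr 1
    have e3 : N * (N ^ 5)⁻¹ = (N ^ 4)⁻¹ := by field_simp
    rw [e1, e2, hnu, e3]
    exact bad_num u3 hE1 hE u4
  have hs : 0 ≤ 4 * A * d * u := by positivity
  have hT : N150D.tmix (genMat J b) (gibbs J b) ε ≤ 4 * A * d * u + ((t0 + 1) + 1) := by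
    refine N150D.tmix_le_of (by positivity) fun x => ?_
    have h1 := det hJ hκ hC hr hV hA hMl hmin hε hε1.le hM0 hMe
      (r := (N ^ 5)⁻¹) (T := t0 + 1) (l := d * u) (R := 13 * u) (θ := θ) (a := 1 / (2 * u))
      (by positivity) (by linarith) (by positivity) hθ0 (by positivity)
      (by rw [div_le_one (by positivity)]; linarith) hbad (htv x) hs
    refine (abs_le_of_sq_le_sq' (h1.trans ?_) hε.le).2
    have e1 : Real.exp (-(4 * A * d * u / A))
        = (Real.exp (2 * (d * u)) * Real.exp (2 * (d * u)))⁻¹ := by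
      rw [← Real.exp_add, ← Real.exp_neg]
      congr 1
      field_simp
      ring
    have e2 : Real.exp (-(1 / (1 / (2 * u)))) * (4 * n) ≤ 4 := by
      rw [one_div_one_div, hnu, show -(2 * u) = -((2 : ℕ) * u) by push_cast; ring, pw]
      have k1 : (N ^ 2)⁻¹ * (4 * N) = 4 / N := by field_simp
      rw [k1, div_le_iff₀ hN0]
      linarith
    rw [e1]
    exact fin_num hκ hε u1 hE1 hc00 e2 (by rwa [mul_assoc] at u5)
  rw [div_le_iff₀ hδ] at u2
  linarith only [hT, u2, mul_le_mul_of_nonneg_right hd2 (show 0 ≤ u by linarith)]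

end Vale.Agent.P150.Cut
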