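import Vale.Agent.Q150.Ent
import Vale.Agent.P150.H185.MainAT

/-!
Cutoff for the heat-bath dynamics of the zero-field SK model at `β ≤ 0.39`.
-/

open Finset Filter Topology

namespace Vale.Agent.P150.Cut

open Vale.Agent.P150.MainThm (whp_mono whp_inter)

open Asm in
/-- the couplings, with probability tending to one -/
theorem good {β e : ℝ} (hβ0 : 0 ≤ β) (he0 : 0 < e) : WHP (fun n => {g |
    (∀ v : Fin n → ℝ, |∑ i, ∑ j, Jo (skJ β g) i j * v i * v j| ≤ β * (2 + e) * ∑ i, v i ^ 2) ∧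
    (∀ i, ∑ j, Jo (skJ β g) i j ^ 2 ≤ β ^ 2 * (1 + e)) ∧ ∀ i j, |Jo (skJ β g) i j| ≤ β * e}) := by
  refine tendsto_zero_of_inter (A := fun n => {g | ∀ v : Fin n → ℝ,
      |∑ i, ∑ j, gsym g i j * v i * v j| ≤ (2 + e) * √n * ∑ i, v i ^ 2})
    (B := fun n => {g | ∀ i : Fin n, ∑ j, gsym g i j ^ 2 ≤ (1 + e) * n})
    (C := fun n => {g | ∀ i j : Fin n, |gsym g i j| ≤ e * √n}) ?_ ?_ ?_
    (goe_norm he0) (goe_rows he0) (goe_max he0) ?_
  · intro n
    apply IsClosed.measurableSet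
    simp only [Set.ofPred_forall]
    refine isClosed_iInter fun v => isClosed_le ?_ continuous_const
    refine (continuous_finsetSum _ fun i _ => continuous_finsetSum _ fun j _ => ?_).abs
    exact ((continuous_gsym i j).mul continuous_const).mul continuous_const
  · intro n
    apply IsClosed.measurableSet
    simp only [Set.ofPred_forall]
    refine isClosed_iInter fun i => isClosed_le ?_ continuous_const
    exact continuous_finsetSum _ fun j _ => (continuous_gsym i j).pow 2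
  · intro n
    apply IsClosed.measurableSet
    simp only [Set.ofPred_forall]
    refine isClosed_iInter fun i => isClosed_iInter fun j => isClosed_le ?_ continuous_const
    exact (continuous_gsym i j).abs
  filter_upwards [eventually_gt_atTop 0] with n hn0
  rintro g ⟨⟨hA, hB'⟩, hC'⟩
  simp only [Set.mem_ofPred_eq] at hA hB' hC' ⊢
  have hn1 : (0 : ℝ) < n := by exact_mod_cast hn0
  have hsq : 0 < √(n:ℝ) := Real.sqrt_pos.mpr hn1
  have hsq2 : √(n:ℝ) ^ 2 = n := Real.sq_sqrt hn1.le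
  have hb0 : 0 ≤ β / √n := div_nonneg hβ0 hsq.le
  have hJo : ∀ i j, Jo (skJ β g) i j = skJ β g i j := by
    intro i j
    unfold Jo
    by_cases h : j = i
    · subst h; rw [if_pos rfl, skJ_diag]
    · rw [if_neg h]
  refine ⟨?_, ?_, ?_⟩
  · intro v
    simp only [hJo]
    rw [skJ_form, abs_mul, abs_of_nonneg hb0]
    calc β / √n * |∑ i, ∑ j, gsym g i j * v i * v j|
        ≤ β / √n * ((2 + e) * √n * ∑ i, v i ^ 2) := mul_le_mul_of_nonneg_left (hA v) hb0
      _ = β * (2 + e) * ∑ i, v i ^ 2 := by field_simp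
  · intro i
    simp only [hJo]
    have h1 : ∑ j, skJ β g i j ^ 2 = β ^ 2 / n * ∑ j, gsym g i j ^ 2 := by
      unfold skJ
      rw [Finset.mul_sum]; apply Finset.sum_congr rfl; intro j _
      rw [mul_pow, div_pow, hsq2]
    rw [h1]
    calc β ^ 2 / n * ∑ j, gsym g i j ^ 2 ≤ β ^ 2 / n * ((1 + e) * n) :=
          mul_le_mul_of_nonneg_left (hB' i) (by positivity)
      _ = β ^ 2 * (1 + e) := by field_simp
  · intro i j
    rw [hJo]
    unfold skJ
    rw [abs_mul, abs_of_nonneg hb0]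
    calc β / √n * |gsym g i j| ≤ β / √n * (e * √n) :=
          mul_le_mul_of_nonneg_left (hC' i j) hb0
      _ = β * e := by field_simp

/-- positive curvature -/
theorem sk_curv {β : ℝ} (h0 : 0 ≤ β) (h1 : β ≤ 39 / 100) : WHP (fun _ => {g |
    Curv (skJ β g) (fun _ => 0) (1 / 200) ∧ ∀ i, ∑ j, Jo (skJ β g) i j ^ 2 ≤ 1}) := by
  refine whp_mono (good h0 (e := 1 / 20000) (by norm_num)) (Eventually.of_forall fun n g hg => ?_)
  obtain ⟨a1, a2, a3⟩ := hg
  have hr : ∀ i, ∑ j, Jo (skJ β g) i j ^ 2 ≤ 153 / 1000 := fun i => (a2 i).trans (by nlinarith)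
  refine ⟨curv (Asm.skJ_symm β g) (lam := 781 / 1000) (γ := 196 / 1000) (η := 1 / 10000)
    (by norm_num) (fun v => (a1 v).trans ?_) hr (by norm_num) (by norm_num)
    (fun i j => by linarith [a3 i j]) (by norm_num) (by norm_num) (by norm_num),
    fun i => (hr i).trans (by norm_num)⟩
  exact mul_le_mul_of_nonneg_right (by linarith) (Finset.sum_nonneg fun i _ => sq_nonneg _)

lemma field_sq {n : ℕ} {J : Fin n → Fin n → ℝ} (hJ : ∀ i j, J i j = J j i) {c : ℝ} (hc : 0 < c)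
    (hg : c ≤ gap J (fun _ => 0)) (hr : ∀ i, ∑ j, Jo J i j ^ 2 ≤ 1) (i : Fin n) :
    ex J (fun _ => 0) (fun y => locField J (fun _ => 0) y i ^ 2) ≤ 1 / c := by
  set f : Cfg n → ℝ := fun y => ∑ j, Jo J i j * sp (y j) with hf
  have e : (fun y => locField J (fun _ => 0) y i ^ 2) = fun y => f y ^ 2 := by
    funext y
    rw [locField_eq, zero_add]
  have hmean : ex J (fun _ => 0) f = 0 := by
    have h1 : ex J (fun _ => 0) f = ∑ j, Jo J i j * ex J (fun _ => 0) (fun y => sp (y j)) := by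
      unfold ex
      simp only [hf, Finset.mul_sum]
      rw [Finset.sum_comm]
      exact Finset.sum_congr rfl fun j _ => Finset.sum_congr rfl fun y _ => by ring
    rw [h1]
    exact Finset.sum_eq_zero fun j _ => by rw [Poinc.ex_sp_zero, mul_zero]
  have h1 := Semi.gap_mul_var_le (J := J) (fun _ => 0) hJ f
  rw [Semi.var_eq, hmean] at h1
  have h2 := (Poinc.dir_lin_le J (fun _ => 0) hJ (Jo J i)).trans (hr i)
  have h3 : 0 ≤ ex J (fun _ => 0) (fun y => f y ^ 2) := Semi.ex_nonneg _ fun _ => sq_nonneg _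
  rw [e, le_div_iff₀' hc]
  have h4 := mul_le_mul_of_nonneg_right hg h3
  linarith only [h1, h2, h4]

/-- the window -/
theorem sk_window {β ε δ : ℝ} (h0 : 0 ≤ β) (h1 : β ≤ 39 / 100) (hε : 0 < ε) (hε1 : ε < 1)
    (hδ : 0 < δ) : WHP (fun n => {g |
      N150D.tmix (genMat (skJ β g) fun _ => 0) (gibbs (skJ β g) fun _ => 0) ε
        ≤ N150D.tmix (genMat (skJ β g) fun _ => 0) (gibbs (skJ β g) fun _ => 0) (1 - ε)
          + δ * Real.log n}) := by
  obtain ⟨c, C, hc, -, h⟩ := H185.high_zero_at β h0 (by linarith)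
  obtain ⟨A, hA, h2⟩ := H185.sk_mlsi β h0 (by linarith)
  have h3 : WHP (fun n => {g |
      N150D.Ent.MLSI (genMat (skJ β g) fun _ => 0) (gibbs (skJ β g) fun _ => 0) A ∧
      ∀ x, -Real.log (gibbs (skJ β g) (fun _ => 0) x) ≤ 4 * n}) :=
    h2.mono fun _ h => And.intro (N150D.Ent.mlsi_iff.2 h.1) h.2
  refine whp_mono (whp_inter (whp_inter h h3) (sk_curv h0 h1)) ?_
  filter_upwards [window (κ := 1 / 200) (V := 1 / c) (by norm_num) hA (by positivity) hε hε1 hδ]
    with n hn g hg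
  obtain ⟨⟨a1, a2, a3⟩, a4, a5⟩ := hg
  have hJ := Asm.skJ_symm β g
  exact hn _ _ hJ a4 a5 (field_sq hJ hc a1.1 a5) a2 a3 (hc.trans_le a1.1)

/-- cutoff -/
theorem cutoff {β ε η : ℝ} (h0 : 0 ≤ β) (h1 : β ≤ 39 / 100) (hε : 0 < ε) (hε1 : ε < 1)
    (hη : 0 < η) : WHP (fun _ => {g |
      |N150D.tmix (genMat (skJ β g) fun _ => 0) (gibbs (skJ β g) fun _ => 0) ε
        / N150D.tmix (genMat (skJ β g) fun _ => 0) (gibbs (skJ β g) fun _ => 0) (1 / 4) - 1|
        ≤ η}) := by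
  obtain ⟨c, C, hc, -, h⟩ := H185.high_zero_at β h0 (by linarith)
  obtain ⟨e, e0, e1, e2, e3⟩ : ∃ e : ℝ, 0 < e ∧ e ≤ ε ∧ e ≤ 1 - ε ∧ e ≤ 1 / 4 :=
    ⟨min (min ε (1 - ε)) (1 / 4), lt_min (lt_min hε (by linarith)) (by norm_num),
      (min_le_left _ _).trans (min_le_left _ _), (min_le_left _ _).trans (min_le_right _ _),
      min_le_right _ _⟩
  refine whp_mono (whp_inter h (sk_window h0 h1 e0 (by linarith) (mul_pos hη hc))) ?_
  filter_upwards [eventually_ge_atTop 2] with n hn g hg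
  obtain ⟨⟨a1, -, a2, -⟩, a3⟩ := hg
  have hR := N150D.Ent.rev_genMat (b := fun _ => 0) (Asm.skJ_symm β g)
  have hg0 : 0 < N150D.gap (genMat (skJ β g) fun _ => 0) (gibbs (skJ β g) fun _ => 0) := by
    rw [N150D.Ent.gap_genMat]
    exact hc.trans_le a1
  rw [← N150D.Ent.tmix_genMat] at a2
  have b1 := N150D.tmix_mono e1 (hR.mixes hg0 e0)
  have b2 := N150D.tmix_mono e3 (hR.mixes hg0 e0)
  have b3 := N150D.tmix_mono (show ε ≤ 1 - e by linarith) (hR.mixes hg0 hε)
  have b4 := N150D.tmix_mono (show (1 / 4 : ℝ) ≤ 1 - e by linarith) (hR.mixes hg0 (by norm_num))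
  have hl : 0 < Real.log n := Real.log_pos (by exact_mod_cast hn)
  have b5 := (mul_pos hc hl).trans_le a2
  have b6 := mul_le_mul_of_nonneg_left a2 hη.le
  rw [Set.mem_ofPred_eq] at a3 ⊢
  rw [div_sub_one b5.ne', abs_div, abs_of_pos b5, div_le_iff₀ b5, abs_le]
  constructor <;> linarith only [a3, b1, b2, b3, b4, b6]

end Vale.Agent.P150.Cut
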